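import Vale.Agent.P312.LS

/-! Arithmetic in linear space. -/

namespace Vale.Agent.P312

open scoped Classical

variable {A α β γ : Type} [Enc A α] [Enc A β] [Enc A γ]

theorem itr_nrm {n : ℕ} {z : β} {f : ℕ → β → β} {b : ℕ}
    (h : ∀ i acc, i < n → nrm A (f i acc) ≤ nrm A acc + b) :
    ∀ i ≤ n, nrm A (itr i z f) ≤ nrm A z + i * b := by
  intro i
  induction i with
  | zero => simp
  | succ i ih =>
    intro hi
    have := h i (itr i z f) hi
    have := ih (by omega)
    rw [itr_succ]; nlinarith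

theorem LS.pb {f : α → β} (hf : LS A f) : ∃ C, PB A C (fun a => nrm A (f a)) := by
  obtain ⟨C, h, _⟩ := hf.multi; exact ⟨C, h⟩

theorem itr_pb {n b : α → ℕ} {z : α → β} {f : α → ℕ → β → β} (hn : LS A n) (hz : LS A z)
    (hb : LS A b) (h : ∀ a i acc, i < n a → nrm A (f a i acc) ≤ nrm A acc + b a) :
    ∃ C, ∀ a (x : List A), Enc.ok a x → ∀ i ≤ n a, nrm A (itr i (z a) (f a)) ≤ bnd x a ^ C := by
  obtain ⟨C1, h1⟩ := hn.pb
  obtain ⟨C2, h2⟩ := hz.pb
  obtain ⟨C3, h3⟩ := hb.pb
  refine ⟨C2 + (C1 + C3) + 1, fun a x hx i hi => (itr_nrm (h a) i hi).trans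
    (pw_add (two_le_bnd x a) (h2 a x hx) ?_)⟩
  rw [pow_add]
  have := h1 a x hx
  have := h3 a x hx
  simp only [nrm_nat] at *
  exact Nat.mul_le_mul (by omega) (by omega)

theorem LS.itrN {n z b : α → ℕ} {f : α → ℕ → ℕ → ℕ} (hn : LS A n) (hz : LS A z)
    (hf : LS A (fun p : α × ℕ × ℕ => f p.1 p.2.1 p.2.2)) (hb : LS A b)
    (h : ∀ a i acc, i < n a → f a i acc ≤ acc + b a) :
    LS A (fun a => P312.itr (n a) (z a) (f a)) := by
  obtain ⟨C, hC⟩ := itr_pb (f := f) hn hz hb (by simpa using h)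
  exact ls_nat.2 (LS1.itr (C0 := C) (ls_nat.1 hn) (ls_nat.1 hz) (ls_nat.1 hf) (by simpa using hC))

@[fun_prop] theorem LS.add {f g : α → ℕ} (hf : LS A f) (hg : LS A g) :
    LS A (fun a => f a + g a) := by
  refine (LS.itrN (f := fun _ _ acc => acc + 1) (b := fun _ => 1) hg hf
    (LS.succ (by fun_prop)) (by fun_prop) (fun _ _ _ _ => le_rfl)).of_eq fun a => ?_
  induction g a with
  | zero => rfl
  | succ k ih => rw [itr_succ, ih]; rfl

@[fun_prop] theorem LS.mul {f g : α → ℕ} (hf : LS A f) (hg : LS A g) :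
    LS A (fun a => f a * g a) := by
  refine (LS.itrN (f := fun a _ acc => acc + f a) (z := fun _ => 0) hg (by fun_prop)
    (by fun_prop) hf (fun _ _ _ _ => le_rfl)).of_eq fun a => ?_
  induction g a with
  | zero => rfl
  | succ k ih => rw [itr_succ, ih]; rfl

theorem LS.pred {f : α → ℕ} (hf : LS A f) : LS A (fun a => f a - 1) := by
  refine (LS.itrN (f := fun _ i _ => i) (z := fun _ => 0) hf (by fun_prop)
    (by fun_prop) hf (fun _ _ _ h => by omega)).of_eq fun a => ?_
  cases f a <;> rfl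

@[fun_prop] theorem LS.sub {f g : α → ℕ} (hf : LS A f) (hg : LS A g) :
    LS A (fun a => f a - g a) := by
  refine (LS.itrN (f := fun _ _ acc => acc - 1) (b := fun _ => 0) hg hf
    (LS.pred (by fun_prop)) (by fun_prop) (fun _ _ _ _ => by omega)).of_eq fun a => ?_
  induction g a with
  | zero => rfl
  | succ k ih => rw [itr_succ, ih]; rfl

theorem LS.ite0 {c : α → ℕ} {f g : α → β} (hc : LS A c) (hf : LS A f) (hg : LS A g) :
    LS A (fun a => if c a = 0 then f a else g a) := by
  refine ⟨fun a x hx => ?_, fun i hi => ?_⟩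
  · dsimp only
    split_ifs
    · exact hf.1 a x hx
    · exact hg.1 a x hx
  · refine (LS1.ite (ls_nat.1 hc) (hf.2 i hi) (hg.2 i hi)).of_eq fun a => ?_
    dsimp only
    split_ifs <;> rfl

@[fun_prop] def LP (A : Type) {α : Type} [Enc A α] (P : α → Prop) : Prop :=
  LS A (fun a => if P a then 0 else 1)

@[fun_prop] theorem LP.comp {P : β → Prop} {g : α → β} (hP : LP A P) (hg : LS A g) :
    LP A (fun a => P (g a)) := LS.comp (f := fun b => if P b then 0 else 1) hP hg

@[fun_prop] theorem LS.ite {P : α → Prop} [∀ a, Decidable (P a)] {f g : α → β} (hP : LP A P)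
    (hf : LS A f) (hg : LS A g) : LS A (fun a => if P a then f a else g a) := by
  refine (LS.ite0 hP hf hg).of_eq fun a => ?_
  by_cases h : P a <;> simp [h]

@[fun_prop] theorem LP.le {f g : α → ℕ} (hf : LS A f) (hg : LS A g) :
    LP A (fun a => f a ≤ g a) := by
  refine (LS.ite0 (hf.sub hg) (LS.const 0) (LS.const 1)).of_eq fun a => ?_
  simp only [Nat.sub_eq_zero_iff_le]
  split_ifs <;> rfl

@[fun_prop] theorem LP.lt {f g : α → ℕ} (hf : LS A f) (hg : LS A g) :
    LP A (fun a => f a < g a) := LP.le hf.succ hg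

@[fun_prop] theorem LP.not {P : α → Prop} (hP : LP A P) : LP A (fun a => ¬ P a) := by
  refine (LS.ite hP (LS.const 1) (LS.const 0)).of_eq fun a => ?_
  by_cases h : P a <;> simp [h]

@[fun_prop] theorem LP.and {P Q : α → Prop} (hP : LP A P) (hQ : LP A Q) :
    LP A (fun a => P a ∧ Q a) := by
  refine (LS.ite hP hQ (LS.const 1)).of_eq fun a => ?_
  by_cases h : P a <;> simp [h]

@[fun_prop] theorem LP.or {P Q : α → Prop} (hP : LP A P) (hQ : LP A Q) :
    LP A (fun a => P a ∨ Q a) := by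
  refine (LS.ite hP (LS.const 0) hQ).of_eq fun a => ?_
  by_cases h : P a <;> simp [h]

@[fun_prop] theorem LP.eq {f g : α → ℕ} (hf : LS A f) (hg : LS A g) :
    LP A (fun a => f a = g a) := by
  refine (LS.of_eq (LP.and (LP.le hf hg) (LP.le hg hf)) fun a => ?_)
  simp only [← le_antisymm_iff]
  split_ifs <;> rfl

@[fun_prop] theorem LP.ne {f g : α → ℕ} (hf : LS A f) (hg : LS A g) :
    LP A (fun a => f a ≠ g a) := (LP.eq hf hg).not

@[fun_prop] theorem LS.mod {f g : α → ℕ} (hf : LS A f) (hg : LS A g) :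
    LS A (fun a => f a % g a) := by
  refine (LS.itrN (f := fun a _ acc => if acc + 1 = g a then 0 else acc + 1) (z := fun _ => 0)
    (b := fun _ => 1) hf (by fun_prop) (by fun_prop) (by fun_prop)
    (fun _ _ _ _ => by split_ifs <;> omega)).of_eq fun a => ?_
  induction f a with
  | zero => simp
  | succ k ih =>
    rw [itr_succ, ih]
    rcases Nat.eq_zero_or_pos (g a) with h | h
    · simp [h]
    · have h1 := Nat.mod_lt k h
      have h2 : (k + 1) % g a = (k % g a + 1) % g a := by simp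
      rw [h2]
      split_ifs with h3
      · rw [h3, Nat.mod_self]
      · exact (Nat.mod_eq_of_lt (by omega)).symm

@[fun_prop] theorem LS.div {f g : α → ℕ} (hf : LS A f) (hg : LS A g) :
    LS A (fun a => f a / g a) := by
  refine (LS.itrN (f := fun a i acc => if (i + 1) % g a = 0 then acc + 1 else acc)
    (z := fun _ => 0) (b := fun _ => 1) hf (by fun_prop) (by fun_prop) (by fun_prop)
    (fun _ _ _ _ => by split_ifs <;> omega)).of_eq fun a => ?_
  induction f a with
  | zero => simp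
  | succ k ih =>
    rw [itr_succ, ih, Nat.succ_div]
    simp only [Nat.dvd_iff_mod_eq_zero]
    split_ifs <;> rfl

@[fun_prop] theorem LS.sqrt {f : α → ℕ} (hf : LS A f) : LS A (fun a => Nat.sqrt (f a)) := by
  refine (LS.itrN (f := fun a i acc => if (acc + 1) * (acc + 1) ≤ i + 1 then acc + 1 else acc)
    (z := fun _ => 0) (b := fun _ => 1) hf (by fun_prop) (by fun_prop) (by fun_prop)
    (fun _ _ _ _ => by split_ifs <;> omega)).of_eq fun a => ?_
  induction f a with
  | zero => simp
  | succ k ih =>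
    rw [itr_succ, ih]
    have h1 := Nat.sqrt_succ_le_succ_sqrt k
    have h2 := Nat.sqrt_le_sqrt (Nat.le_succ k)
    split_ifs with h
    · have := Nat.le_sqrt.2 h
      simp only [Nat.succ_eq_add_one] at *
      omega
    · have := mt Nat.le_sqrt.1 h
      simp only [Nat.succ_eq_add_one] at *
      omega

@[fun_prop] theorem LS.natPair {f g : α → ℕ} (hf : LS A f) (hg : LS A g) :
    LS A (fun a => Nat.pair (f a) (g a)) := by
  unfold Nat.pair; fun_prop

@[fun_prop] theorem LS.unpair {f : α → ℕ} (hf : LS A f) : LS A (fun a => Nat.unpair (f a)) := by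
  unfold Nat.unpair; fun_prop

class Tup (A β : Type) [Enc A β] where
  pk : β → ℕ
  up : ℕ → β
  up_pk : ∀ b, up (pk b) = b
  ls_pk : LS A pk
  ls_up : LS A up

instance (A : Type) : Tup A ℕ := ⟨fun n => n, fun n => n, fun _ => rfl, LS.id, LS.id⟩

instance (A β γ : Type) [Enc A β] [Enc A γ] [Tup A β] [Tup A γ] : Tup A (β × γ) where
  pk p := Nat.pair (Tup.pk A p.1) (Tup.pk A p.2)
  up n := (Tup.up A n.unpair.1, Tup.up A n.unpair.2)
  up_pk p := by simp [Tup.up_pk]
  ls_pk := LS.natPair (Tup.ls_pk.comp ls_fst) (Tup.ls_pk.comp ls_snd)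
  ls_up := LS.pair (Tup.ls_up.comp (LS.unpair LS.id).fst) (Tup.ls_up.comp (LS.unpair LS.id).snd)

theorem LS.itr [Tup A β] {n b : α → ℕ} {z : α → β} {f : α → ℕ → β → β} (hn : LS A n)
    (hz : LS A z) (hf : LS A (fun p : α × ℕ × β => f p.1 p.2.1 p.2.2)) (hb : LS A b)
    (h : ∀ a i acc, i < n a → nrm A (f a i acc) ≤ nrm A acc + b a) :
    LS A (fun a => P312.itr (n a) (z a) (f a)) := by
  obtain ⟨C, hC⟩ := itr_pb (f := f) hn hz hb h
  obtain ⟨C', hC'⟩ := (Tup.ls_pk (A := A) (β := β)).pb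
  have e : ∀ a i, P312.itr i (Tup.pk A (z a)) (fun i acc => Tup.pk A (f a i (Tup.up A acc))) =
      Tup.pk A (P312.itr i (z a) (f a)) := by
    intro a i
    induction i with
    | zero => rfl
    | succ i ih => rw [itr_succ, ih, Tup.up_pk, itr_succ]
  have hok : ∀ (b : β) (x : List A), Enc.ok b x := fun b x => by
    rw [← Tup.up_pk (A := A) b]; exact Tup.ls_up.1 _ x trivial
  have hu := Tup.ls_up (A := A) (β := β)
  have h1 : LS A (fun p : α × ℕ × ℕ => Tup.pk A (f p.1 p.2.1 (Tup.up A p.2.2))) :=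
    Tup.ls_pk.comp (hf.comp (g := fun p : α × ℕ × ℕ => (p.1, p.2.1, Tup.up A p.2.2))
      (by fun_prop))
  have h2 := LS1.itr (f := fun a i acc => Tup.pk A (f a i (Tup.up A acc))) (C0 := (C + 2) * C')
    (ls_nat.1 hn) (ls_nat.1 (Tup.ls_pk.comp hz)) (ls_nat.1 h1) (fun a x hx i hi => by
      rw [e, pow_mul]
      have := hC' _ x (hok (P312.itr i (z a) (f a)) x)
      simp only [nrm_nat] at this
      exact this.trans (Nat.pow_le_pow_left (bnd_le (hC a x hx i hi)) _))
  refine (hu.comp (ls_nat.2 h2)).of_eq fun a => ?_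
  simp only [e, Tup.up_pk]

/-- remainder, zero for modulus zero -/
def md (q x : ℕ) : ℕ := if q = 0 then 0 else x % q

theorem md_le (q x : ℕ) : md q x ≤ q := by
  unfold md; split_ifs with h
  · omega
  · exact (Nat.mod_lt _ (by omega)).le

theorem md_eq {q : ℕ} (h : 0 < q) (x : ℕ) : md q x = x % q := if_neg (by omega)
theorem md_of_lt {q x : ℕ} (h : x < q) : md q x = x := by
  rw [md_eq (by omega), Nat.mod_eq_of_lt h]

@[fun_prop] theorem LS.md {f g : α → ℕ} (hf : LS A f) (hg : LS A g) :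
    LS A (fun a => md (f a) (g a)) := by
  unfold P312.md; fun_prop

/-- shift down -/
def shr (K x i : ℕ) : ℕ := x / K ^ i

@[fun_prop] theorem LS.shr {K x i : α → ℕ} (hK : LS A K) (hx : LS A x) (hi : LS A i) :
    LS A (fun a => shr (K a) (x a) (i a)) := by
  refine (LS.itrN (f := fun a _ acc => acc / K a) (b := fun _ => 0) hi hx (by fun_prop)
    (by fun_prop) (fun _ _ _ _ => Nat.div_le_self _ _)).of_eq fun a => ?_
  unfold P312.shr
  induction i a with
  | zero => simp
  | succ k ih => rw [itr_succ, ih, Nat.div_div_eq_div_mul, pow_succ]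

/-- digit -/
def dig (K x i : ℕ) : ℕ := shr K x i % K

@[fun_prop] theorem LS.dig {K x i : α → ℕ} (hK : LS A K) (hx : LS A x) (hi : LS A i) :
    LS A (fun a => dig (K a) (x a) (i a)) := by
  unfold P312.dig; fun_prop

/-- number with given digits -/
def ofd (K : ℕ) (f : ℕ → ℕ) : ℕ → ℕ
  | 0 => 0
  | m + 1 => f 0 + K * ofd K (fun i => f (i + 1)) m

theorem ofd_succ' (K : ℕ) (f : ℕ → ℕ) (m : ℕ) : ofd K f (m + 1) = ofd K f m + f m * K ^ m := by
  induction m generalizing f with
  | zero => simp [ofd]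
  | succ m ih => rw [ofd, ih, ofd]; ring

theorem ofd_congr {K : ℕ} {f g : ℕ → ℕ} {m : ℕ} (h : ∀ i < m, f i = g i) :
    ofd K f m = ofd K g m := by
  induction m with
  | zero => rfl
  | succ m ih => rw [ofd_succ', ofd_succ', ih fun i hi => h i (by omega), h m (by omega)]

theorem ofd_lt {K : ℕ} {f : ℕ → ℕ} {m : ℕ} (h : ∀ i < m, f i < K) : ofd K f m < K ^ m := by
  induction m with
  | zero => simp [ofd]
  | succ m ih =>
    have h1 := ih fun i hi => h i (by omega)
    have h2 := h m (by omega)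
    rw [ofd_succ', pow_succ]; nlinarith

theorem dig_zero (K x : ℕ) : dig K x 0 = x % K := by simp [dig, shr]
theorem dig_succ (K x i : ℕ) : dig K x (i + 1) = dig K (x / K) i := by
  simp only [dig, shr, Nat.div_div_eq_div_mul, pow_succ']

theorem dig_lt {K : ℕ} (hK : 0 < K) (x i : ℕ) : dig K x i < K := Nat.mod_lt _ hK

theorem dig_ofd {K : ℕ} {f : ℕ → ℕ} {m : ℕ} (h : ∀ i < m, f i < K) {i : ℕ} (hi : i < m) :
    dig K (ofd K f m) i = f i := by
  induction m generalizing f i with
  | zero => omega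
  | succ m ih =>
    have h0 := h 0 (by omega)
    cases i with
    | zero => rw [dig_zero, ofd, Nat.add_mul_mod_self_left, Nat.mod_eq_of_lt h0]
    | succ i =>
      rw [dig_succ, ofd, Nat.add_mul_div_left _ _ (by omega), Nat.div_eq_of_lt h0, zero_add,
        ih (fun i hi => h (i + 1) (by omega)) (by omega)]

theorem ofd_dig {K x m : ℕ} (h : x < K ^ m) : ofd K (dig K x) m = x := by
  induction m generalizing x with
  | zero => simp at h; simp [ofd, h]
  | succ m ih =>
    rw [ofd, dig_zero, show (fun i => dig K x (i + 1)) = dig K (x / K) from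
      funext fun i => dig_succ _ _ _, ih, Nat.mod_add_div]
    rw [pow_succ'] at h
    exact Nat.div_lt_of_lt_mul h

theorem LS.ofd {Z K m : α → ℕ} {f : α → ℕ → ℕ} (hZ : LS A Z) (hK : LS A K) (hm : LS A m)
    (hf : LS A (fun p : α × ℕ => f p.1 p.2)) :
    LS A (fun a => P312.md (Z a) (ofd (K a) (f a) (m a))) := by
  have h1 : LS A (fun p : α × ℕ × ℕ => f p.1 (m p.1 - 1 - p.2.1)) :=
    hf.comp (g := fun p : α × ℕ × ℕ => (p.1, m p.1 - 1 - p.2.1)) (by fun_prop)
  refine (LS.itrN (f := fun a i acc => P312.md (Z a) (f a (m a - 1 - i) + K a * acc))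
    (z := fun _ => 0) hm (by fun_prop) (by fun_prop) hZ
    (fun a _ _ _ => (md_le _ _).trans (by omega))).of_eq fun a => ?_
  have : ∀ j ≤ m a, P312.itr j 0 (fun i acc => P312.md (Z a) (f a (m a - 1 - i) + K a * acc)) =
      P312.md (Z a) (P312.ofd (K a) (fun i => f a (m a - j + i)) j) := by
    intro j
    induction j with
    | zero => simp [P312.md, P312.ofd]
    | succ j ih =>
      intro hj
      rw [itr_succ, ih (by omega), P312.ofd]
      have e : (fun i => f a (m a - (j + 1) + (i + 1))) = fun i => f a (m a - j + i) :=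
        funext fun i => by congr 1; omega
      rw [e, show m a - (j + 1) + 0 = m a - 1 - j by omega]
      unfold P312.md
      split_ifs
      · rfl
      · simp [Nat.add_mod, Nat.mul_mod]
  simpa using this _ le_rfl

/-- power modulo -/
def pwm (q b e : ℕ) : ℕ := md q (b ^ e)

@[fun_prop] theorem LS.pwm {q b e : α → ℕ} (hq : LS A q) (hb : LS A b) (he : LS A e) :
    LS A (fun a => pwm (q a) (b a) (e a)) := by
  refine (LS.itrN (f := fun a _ acc => P312.md (q a) (acc * b a)) (z := fun a => P312.md (q a) 1)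
    he (by fun_prop) (by fun_prop) hq
    (fun a _ _ _ => (md_le _ _).trans (by omega))).of_eq fun a => ?_
  unfold P312.pwm
  induction e a with
  | zero => simp
  | succ k ih =>
    rw [itr_succ, ih, pow_succ]
    unfold P312.md
    split_ifs
    · rfl
    · simp [Nat.mul_mod]

/-- sum modulo -/
def smod (q n : ℕ) (f : ℕ → ℕ) : ℕ := itr n 0 (fun i acc => md q (acc + f i))
/-- product modulo -/
def pmod (q n : ℕ) (f : ℕ → ℕ) : ℕ := itr n 1 (fun i acc => md q (acc * f i))

theorem LS.smod {q n : α → ℕ} {f : α → ℕ → ℕ} (hq : LS A q) (hn : LS A n)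
    (hf : LS A (fun p : α × ℕ => f p.1 p.2)) : LS A (fun a => smod (q a) (n a) (f a)) := by
  have h1 : LS A (fun p : α × ℕ × ℕ => f p.1 p.2.1) :=
    hf.comp (g := fun p : α × ℕ × ℕ => (p.1, p.2.1)) (by fun_prop)
  exact LS.itrN (f := fun a i acc => P312.md (q a) (acc + f a i)) hn (by fun_prop) (by fun_prop) hq
    (fun a _ _ _ => (md_le _ _).trans (by omega))

theorem LS.pmod {q n : α → ℕ} {f : α → ℕ → ℕ} (hq : LS A q) (hn : LS A n)
    (hf : LS A (fun p : α × ℕ => f p.1 p.2)) : LS A (fun a => pmod (q a) (n a) (f a)) := by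
  have h1 : LS A (fun p : α × ℕ × ℕ => f p.1 p.2.1) :=
    hf.comp (g := fun p : α × ℕ × ℕ => (p.1, p.2.1)) (by fun_prop)
  exact LS.itrN (f := fun a i acc => P312.md (q a) (acc * f a i)) hn (by fun_prop) (by fun_prop) hq
    (fun a _ _ _ => (md_le _ _).trans (by omega))

theorem cast_md {q : ℕ} (h : 0 < q) (x : ℕ) : ((md q x : ℕ) : ZMod q) = x := by
  rw [md_eq h, ZMod.natCast_mod]

theorem cast_smod {q : ℕ} (h : 0 < q) (n : ℕ) (f : ℕ → ℕ) :
    ((smod q n f : ℕ) : ZMod q) = ∑ i ∈ Finset.range n, (f i : ZMod q) := by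
  unfold smod
  induction n with
  | zero => simp
  | succ n ih => rw [itr_succ, cast_md h, Finset.sum_range_succ, ← ih]; push_cast; rfl

theorem cast_pmod {q : ℕ} (h : 0 < q) (n : ℕ) (f : ℕ → ℕ) :
    ((pmod q n f : ℕ) : ZMod q) = ∏ i ∈ Finset.range n, (f i : ZMod q) := by
  unfold pmod
  induction n with
  | zero => simp
  | succ n ih => rw [itr_succ, cast_md h, Finset.prod_range_succ, ← ih]; push_cast; rfl

theorem cast_pwm {q : ℕ} (h : 0 < q) (b e : ℕ) : ((pwm q b e : ℕ) : ZMod q) = (b : ZMod q) ^ e := by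
  rw [pwm, cast_md h]; push_cast; rfl

/-- finite tables -/
theorem ls_table (s : Finset (ℕ × ℕ)) (f : ℕ × ℕ → ℕ) :
    LS A (fun p : ℕ × ℕ => if p ∈ s then f p else 0) := by
  induction s using Finset.induction_on with
  | empty => simpa using LS.const 0
  | insert c s _ ih =>
    have : LS A (fun p : ℕ × ℕ => if p.1 = c.1 ∧ p.2 = c.2 then f c
        else if p ∈ s then f p else 0) := LS.ite (by fun_prop) (by fun_prop) ih
    refine this.of_eq fun p => ?_
    by_cases h : p = c
    · simp [h]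
    · have h' : ¬ (p.1 = c.1 ∧ p.2 = c.2) := fun h' => h (Prod.ext h'.1 h'.2)
      simp [h, h']

theorem ls_inp (φ : InSym A → ℕ) (N : ℕ) (h : ∀ s, φ s < N) :
    LS A (fun p : Wd A × ℕ => φ (inSym p.1.x (p.2 + 1))) := by
  have key : ∀ M, LS A (fun p : Wd A × ℕ => if φ (inSym p.1.x (p.2 + 1)) < M
      then φ (inSym p.1.x (p.2 + 1)) else 0) := by
    intro M
    induction M with
    | zero => simpa using LS.const 0
    | succ M ih =>
      have h1 := ls_nat.2 (ls1_inp (A := A) (fun s => decide (φ s = M)))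
      refine (LS.ite0 h1 ih (LS.const M)).of_eq fun p => ?_
      by_cases h2 : φ (inSym p.1.x (p.2 + 1)) = M
      · simp [h2]
      · simp only [h2, decide_false, Bool.false_eq_true, if_false, if_true]
        split_ifs <;> omega
  simpa [h] using key N

end Vale.Agent.P312
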