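import Vale.Agent.P312.Poly

/-! The catalytic register program and its correctness. -/

namespace Vale.Agent.P312

open Finset

abbrev DS := ℕ × ℕ × ℕ × ℕ × ℕ × ℕ

def catF (l : ℕ) (f g : ℕ → DS) (i : ℕ) : DS := if i < l then f i else g (i - l)
def repF (l : ℕ) (f : ℕ → ℕ → DS) (i : ℕ) : DS := f (i / l) (i % l)

def run {M : Type} (ex : DS → M → M) (f : ℕ → DS) (n : ℕ) (m : M) : M :=
  itr n m (fun i m => ex (f i) m)

theorem itr_congr {β : Type} {n : ℕ} {z : β} {f g : ℕ → β → β} (h : ∀ i < n, ∀ b, f i b = g i b) :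
    itr n z f = itr n z g := by
  induction n with
  | zero => rfl
  | succ n ih => rw [itr_succ, itr_succ, ih fun i hi => h i (by omega), h n (by omega)]

theorem itr_add {β : Type} (n n' : ℕ) (z : β) (f : ℕ → β → β) :
    itr (n + n') z f = itr n' (itr n z f) (fun i => f (n + i)) := by
  induction n' with
  | zero => rfl
  | succ n' ih => rw [← add_assoc, itr_succ, ih, itr_succ]

section
variable {M : Type} (ex : DS → M → M)

theorem run_one (st : DS) (m : M) : run ex (fun _ => st) 1 m = ex st m := rfl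

theorem run_cat (l l' : ℕ) (f g : ℕ → DS) (m : M) :
    run ex (catF l f g) (l + l') m = run ex g l' (run ex f l m) := by
  unfold run
  rw [itr_add, itr_congr (n := l) (g := fun i m => ex (f i) m)
    (fun i hi b => by simp [catF, hi])]
  exact itr_congr fun i _ b => by simp [catF]

theorem run_rep (n l : ℕ) (f : ℕ → ℕ → DS) (m : M) :
    run ex (repF l f) (n * l) m = itr n m (fun s m => run ex (f s) l m) := by
  induction n with
  | zero => simp [run]
  | succ n ih =>
    rw [itr_succ, ← ih, add_mul, one_mul]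
    unfold run
    rw [itr_add]
    refine itr_congr fun i hi b => ?_
    have h1 : (n * l + i) / l = n := by
      rw [add_comm, Nat.add_mul_div_right _ _ (by omega), Nat.div_eq_of_lt hi, zero_add]
    have h2 : (n * l + i) % l = i := by
      rw [add_comm, Nat.add_mul_mod_self_right, Nat.mod_eq_of_lt hi]
    simp only [repF, h1, h2]

end

theorem itr_act {M B : Type} [AddCommMonoid B] (act : B → M → M) (h0 : ∀ m, act 0 m = m)
    (hadd : ∀ b b' m, act b (act b' m) = act (b' + b) m) (X : ℕ → M → B)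
    (hX : ∀ s b m, X s (act b m) = X s m) (n : ℕ) (T : ℕ → M → M)
    (hT : ∀ s < n, ∀ m, T s m = act (X s m) m) (m : M) :
    itr n m T = act (∑ s ∈ range n, X s m) m := by
  induction n with
  | zero => simp [h0]
  | succ n ih =>
    rw [itr_succ, ih fun s hs => hT s (by omega), hT n (by omega), hX, hadd, sum_range_succ]

def lE (LB : ℕ) : ℕ := LB + (1 + LB)
def lG (k LB : ℕ) : ℕ := k * lE LB + (1 + k * lE LB)
def lP (k G LA LB : ℕ) : ℕ := 1 + (LA + (G * lG k LB + (LA + 1)))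

def trip (q LB bv v o g sg j' : ℕ) : ℕ → DS :=
  catF LB (fun i => (0, bv, j', (o + 2) % 3, 1, i))
    (catF 1 (fun _ => (2, v, j', o, sg, g)) (fun i => (0, bv, j', (o + 2) % 3, q - 1, i)))

def gblk (q k LB bv v j o s g : ℕ) : ℕ → DS :=
  catF (k * lE LB) (repF (lE LB) (trip q LB bv v o g 1))
    (catF 1 (fun _ => (3, v, j, o, s, g)) (repF (lE LB) (trip q LB bv v o g (q - 1))))

def per (q k G LA LB bv v j o s w : ℕ) : ℕ → DS :=
  catF 1 (fun _ => (1, 0, 0, o, w + 1, 1))
    (catF LA (fun i => (0, v, j, (o + 1) % 3, 1, i))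
      (catF (G * lG k LB) (repF (lG k LB) (gblk q k LB bv v j o s))
        (catF LA (fun i => (0, v, j, (o + 1) % 3, q - 1, i))
          (fun _ => (1, 0, 0, o, w + 1, q - 2)))))

def body (q k G LA LB bv v j o s : ℕ) : ℕ → DS :=
  repF (lP k G LA LB) (per q k G LA LB bv v j o s)

def dstep (q k G a : ℕ) (L : ℕ → ℕ) (st : DS) : DS :=
  if st.1 ≠ 0 then st
  else if st.2.1 = 0 then (4, 0, st.2.2.1, st.2.2.2.1, st.2.2.2.2.1, 0)
  else body q k G (L (st.2.1 - 1)) (L ((st.2.1 - 1) / a * a)) ((st.2.1 - 1) / a * a) (st.2.1 - 1)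
    st.2.2.1 st.2.2.2.1 st.2.2.2.2.1 st.2.2.2.2.2

section
variable {F : Type} [Field F]

def rd (d ρ : ℕ) (m : ℕ → F) : ℕ → F := cut d (fun c => m (ρ * d + c))
def addR (d o : ℕ) (β : ℕ → F) (m : ℕ → F) : ℕ → F :=
  fun i => if i / d = o then m i + β (i % d) else m i
def addE (d : ℕ) (x : F) (m : ℕ → F) : ℕ → F := fun i => if i = 3 * d then m i + x else m i
def scl (d o : ℕ) (ω : F) (m : ℕ → F) : ℕ → F := fun i => if i / d = o then m i else ω * m i

variable {d : ℕ}

theorem idx_div {c : ℕ} (ρ : ℕ) (hc : c < d) : (ρ * d + c) / d = ρ := by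
  rw [add_comm, Nat.add_mul_div_right _ _ (by omega), Nat.div_eq_of_lt hc, zero_add]
theorem idx_mod {c : ℕ} (ρ : ℕ) (hc : c < d) : (ρ * d + c) % d = c := by
  rw [add_comm, Nat.add_mul_mod_self_right, Nat.mod_eq_of_lt hc]

theorem rd_addR_ne {ρ o : ℕ} (h : ρ ≠ o) (β m : ℕ → F) : rd d ρ (addR d o β m) = rd d ρ m := by
  funext c
  simp only [rd, cut, addR]
  split_ifs with h1 h2
  · rw [idx_div _ h1] at h2; exact absurd h2 h
  · rfl
  · rfl

theorem rd_addR (ρ : ℕ) (β m : ℕ → F) : rd d ρ (addR d ρ β m) = rd d ρ m + cut d β := by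
  funext c
  simp only [rd, cut, addR, Pi.add_apply]
  split_ifs with h1 h2
  · rw [idx_mod _ h1]
  · exact absurd (idx_div _ h1) h2
  · simp

theorem rd_addE {ρ : ℕ} (h : ρ < 3) (x : F) (m : ℕ → F) : rd d ρ (addE d x m) = rd d ρ m := by
  funext c
  simp only [rd, cut, addE]
  split_ifs with h1 h2
  · exfalso; nlinarith
  · rfl
  · rfl

theorem rd_scl {ρ o : ℕ} (h : ρ ≠ o) (ω : F) (m : ℕ → F) :
    rd d ρ (scl d o ω m) = fun c => ω * rd d ρ m c := by
  funext c
  simp only [rd, cut, scl]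
  split_ifs with h1 h2
  · rw [idx_div _ h1] at h2; exact absurd h2 h
  · rfl
  · simp

theorem three_div (hd : 0 < d) : 3 * d / d = 3 := Nat.mul_div_cancel _ hd

theorem addR_E (hd : 0 < d) {o : ℕ} (h : o < 3) (β m : ℕ → F) : addR d o β m (3 * d) = m (3 * d) := by
  simp only [addR, three_div hd]; rw [if_neg (by omega)]

theorem addR_zero (o : ℕ) (m : ℕ → F) : addR d o 0 m = m := by
  funext i; simp [addR]
theorem addR_add (o : ℕ) (β β' m : ℕ → F) : addR d o β (addR d o β' m) = addR d o (β' + β) m := by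
  funext i; simp only [addR, Pi.add_apply]; split_ifs <;> ring
theorem addE_zero (m : ℕ → F) : addE d 0 m = m := by
  funext i; simp [addE]
theorem addE_add (x y : F) (m : ℕ → F) : addE d x (addE d y m) = addE d (y + x) m := by
  funext i; simp only [addE]; split_ifs <;> ring

theorem cut_bits (x : ℕ) : cut d (bits d x : ℕ → F) = bits d x := by
  funext c; simp only [bits, cut]; split_ifs <;> rfl

end

section
variable (q d k : ℕ) (err : ℕ → ℕ → ℕ → ℕ → ℕ → ℕ) (H : ℕ → ℕ → ℕ → ℕ → ℕ) (N0 : ℕ → ℕ)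
variable [hq : Fact q.Prime]

def exM (st : DS) (m : ℕ → ZMod q) : ℕ → ZMod q :=
  if st.1 = 1 then scl d st.2.2.2.1 ((st.2.2.2.2.1 : ZMod q) ^ st.2.2.2.2.2) m
  else if st.1 = 2 then addE d ((st.2.2.2.2.1 : ZMod q) * ML2 d (err st.2.1 st.2.2.1 st.2.2.2.2.2)
    (rd d ((st.2.2.2.1 + 1) % 3) m) (rd d ((st.2.2.2.1 + 2) % 3) m)) m
  else if st.1 = 3 then addR d st.2.2.2.1 (fun c => -(st.2.2.2.2.1 : ZMod q) * dl q k (m (3 * d)) *
    ML1 d (fun x => dig 2 (H st.2.1 st.2.2.1 st.2.2.2.2.2 x) c) (rd d ((st.2.2.2.1 + 1) % 3) m)) m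
  else if st.1 = 4 then addR d st.2.2.2.1 ((st.2.2.2.2.1 : ZMod q) • bits d (N0 st.2.2.1)) m
  else m

variable {q d k err H N0}
variable {ex : DS → (ℕ → ZMod q) → (ℕ → ZMod q)}
  (hex : ∀ st m, st.1 ≠ 0 → ex st m = exM q d k err H N0 st m) (hd : 0 < d)
  {LA LB bv v o : ℕ} (ho : o < 3) {NB : ℕ → ℕ}
  (hB : ∀ j' < k, ∀ (s : ℕ) m, run ex (fun i => (0, bv, j', (o + 2) % 3, s, i)) LB m =
    addR d ((o + 2) % 3) ((s : ZMod q) • bits d (NB j')) m)

include hex hd ho hB

set_option linter.unusedSectionVars false in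
theorem run_trip (g sg : ℕ) {j' : ℕ} (hj : j' < k) (m : ℕ → ZMod q) :
    run ex (trip q LB bv v o g sg j') (lE LB) m = addE d ((sg : ZMod q) * ML2 d (err v j' g)
      (rd d ((o + 1) % 3) m) (rd d ((o + 2) % 3) m + bits d (NB j'))) m := by
  rw [trip, lE, run_cat, run_cat, run_one, hB j' hj, hB j' hj, hex _ _ (by simp)]
  simp only [exM, if_true, show (2 : ℕ) ≠ 1 by omega, if_false, Nat.cast_one, one_smul,
    rd_addR_ne (show (o + 1) % 3 ≠ (o + 2) % 3 by omega), rd_addR, cut_bits, cast_pred]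
  funext i
  simp only [addR, addE, Pi.smul_apply, smul_eq_mul]
  split_ifs <;> ring

theorem run_trips (g sg : ℕ) (m : ℕ → ZMod q) :
    run ex (repF (lE LB) (trip q LB bv v o g sg)) (k * lE LB) m =
      addE d ((sg : ZMod q) * ∑ j' ∈ range k, ML2 d (err v j' g)
        (rd d ((o + 1) % 3) m) (rd d ((o + 2) % 3) m + bits d (NB j'))) m := by
  rw [run_rep, mul_sum]
  refine itr_act (addE d) addE_zero addE_add (fun j' m => (sg : ZMod q) * ML2 d (err v j' g)
      (rd d ((o + 1) % 3) m) (rd d ((o + 2) % 3) m + bits d (NB j'))) (fun s b m => ?_) k _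
      (fun j' hj m => run_trip hex hd ho hB g sg hj m) m
  rw [rd_addE (by omega), rd_addE (by omega)]

theorem run_gblk (j s g : ℕ) (m : ℕ → ZMod q) :
    run ex (gblk q k LB bv v j o s g) (lG k LB) m =
      addR d o (fun c => -(s : ZMod q) * dl q k (m (3 * d) + ∑ j' ∈ range k, ML2 d (err v j' g)
        (rd d ((o + 1) % 3) m) (rd d ((o + 2) % 3) m + bits d (NB j'))) *
        ML1 d (fun x => dig 2 (H v j g x) c) (rd d ((o + 1) % 3) m)) m := by
  rw [gblk, lG, run_cat, run_cat, run_one, run_trips hex hd ho hB, run_trips hex hd ho hB,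
    hex _ _ (by simp)]
  simp only [exM, if_true, show (3 : ℕ) ≠ 1 by omega, show (3 : ℕ) ≠ 2 by omega, if_false,
    Nat.cast_one, one_mul, rd_addR_ne (show (o + 1) % 3 ≠ o by omega),
    rd_addR_ne (show (o + 2) % 3 ≠ o by omega), rd_addE (show (o + 1) % 3 < 3 by omega),
    rd_addE (show (o + 2) % 3 < 3 by omega), cast_pred]
  funext i
  simp only [addR, addE, if_true]
  split_ifs <;> ring

theorem run_per {G j NA : ℕ}
    (hA : ∀ (s : ℕ) m, run ex (fun i => (0, v, j, (o + 1) % 3, s, i)) LA m =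
      addR d ((o + 1) % 3) ((s : ZMod q) • bits d NA) m)
    (s : ℕ) {w : ℕ} (hw : w < q - 1) (m : ℕ → ZMod q) :
    run ex (per q k G LA LB bv v j o s w) (lP k G LA LB) m =
      addR d o (fun c => ∑ g ∈ range G, -(s : ZMod q) * dl q k (((w + 1 : ℕ) : ZMod q) * m (3 * d) +
        ∑ j' ∈ range k, ML2 d (err v j' g)
          ((fun c => ((w + 1 : ℕ) : ZMod q) * rd d ((o + 1) % 3) m c) + bits d NA)
          ((fun c => ((w + 1 : ℕ) : ZMod q) * rd d ((o + 2) % 3) m c) + bits d (NB j'))) *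
        ML1 d (fun x => dig 2 (H v j g x) c)
          ((fun c => ((w + 1 : ℕ) : ZMod q) * rd d ((o + 1) % 3) m c) + bits d NA)) m := by
  have h1 : ∀ m, run ex (repF (lG k LB) (gblk q k LB bv v j o s)) (G * lG k LB) m =
      addR d o (∑ g ∈ range G, fun c => -(s : ZMod q) * dl q k (m (3 * d) +
        ∑ j' ∈ range k, ML2 d (err v j' g)
        (rd d ((o + 1) % 3) m) (rd d ((o + 2) % 3) m + bits d (NB j'))) *
        ML1 d (fun x => dig 2 (H v j g x) c) (rd d ((o + 1) % 3) m)) m := by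
    intro m
    rw [run_rep]
    refine itr_act (addR d o) (addR_zero o) (addR_add o) (fun g m c => -(s : ZMod q) *
      dl q k (m (3 * d) + ∑ j' ∈ range k, ML2 d (err v j' g)
        (rd d ((o + 1) % 3) m) (rd d ((o + 2) % 3) m + bits d (NB j'))) *
        ML1 d (fun x => dig 2 (H v j g x) c) (rd d ((o + 1) % 3) m)) (fun g b m => ?_) G _
      (fun g _ m => run_gblk hex hd ho hB j s g m) m
    rw [rd_addR_ne (by omega), rd_addR_ne (by omega), addR_E hd ho]
  have h2 := mul_pow_inv (q := q) (c := w + 1) (by omega) (by omega)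
  rw [per, lP, run_cat, run_cat, run_cat, run_cat, run_one, run_one, hA, hA, h1,
    hex _ _ (by simp), hex _ _ (by simp)]
  have e3 : scl d o ((w + 1 : ℕ) : ZMod q) m (3 * d) = ((w + 1 : ℕ) : ZMod q) * m (3 * d) := by
    simp only [scl, three_div hd]; rw [if_neg (by omega)]
  simp only [exM, if_true, Nat.cast_one, one_smul, pow_one, rd_addR, cut_bits,
    rd_addR_ne (show (o + 2) % 3 ≠ (o + 1) % 3 by omega),
    rd_scl (show (o + 1) % 3 ≠ o by omega), rd_scl (show (o + 2) % 3 ≠ o by omega),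
    addR_E hd (show (o + 1) % 3 < 3 by omega), e3, cast_pred]
  funext i
  simp only [addR, scl, Pi.smul_apply, smul_eq_mul, Finset.sum_apply]
  split_ifs with h3 h4
  · omega
  · rfl
  · linear_combination (m i) * h2
  · linear_combination (m i) * h2

theorem run_body {G j NA : ℕ} (hk : k < q) (hdeg : k * (d + d) + d < q - 1)
    (hA : ∀ (s : ℕ) m, run ex (fun i => (0, v, j, (o + 1) % 3, s, i)) LA m =
      addR d ((o + 1) % 3) ((s : ZMod q) • bits d NA) m)
    (hNA : NA < 2 ^ d) (hNB : ∀ j' < k, NB j' < 2 ^ d) (herr : ∀ j' g x y, err v j' g x y ≤ 1)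
    {g0 : ℕ} (hg0 : g0 < G) (h0 : ∀ j' < k, err v j' g0 NA (NB j') = 0)
    (h1 : ∀ g < G, g ≠ g0 → ∃ j' < k, err v j' g NA (NB j') ≠ 0) (s : ℕ) (m : ℕ → ZMod q) :
    run ex (body q k G LA LB bv v j o s) ((q - 1) * lP k G LA LB) m =
      addR d o ((s : ZMod q) • bits d (H v j g0 NA)) m := by
  let φ : (ℕ → ZMod q) → ℕ → ZMod q → ZMod q := fun m c ω =>
    ∑ g ∈ range G, -(s : ZMod q) * dl q k (ω * m (3 * d) +
        ∑ j' ∈ range k, ML2 d (err v j' g)
          ((fun c => ω * rd d ((o + 1) % 3) m c) + bits d NA)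
          ((fun c => ω * rd d ((o + 2) % 3) m c) + bits d (NB j'))) *
        ML1 d (fun x => dig 2 (H v j g x) c)
          ((fun c => ω * rd d ((o + 1) % 3) m c) + bits d NA)
  rw [body, run_rep, itr_act (addR d o) (addR_zero o) (addR_add o)
    (fun w m c => φ m c ((w + 1 : ℕ) : ZMod q)) (fun g b m => by
      simp only [φ]
      rw [rd_addR_ne (by omega), rd_addR_ne (by omega), addR_E hd ho]) (q - 1) _
      (fun w hw m => run_per hex hd ho hB hA s hw m) m]
  have lin : ∀ (τ β : ℕ → ZMod q) c, PD 1 (fun ω => ((fun c => ω * τ c) + β) c) := fun τ β c =>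
    (PD.id.mulc _).add (PD.const _ _)
  have hφ : ∀ c, PD (k * (d + d) + d) (φ m c) := fun c => by
    refine PD.sum _ fun g => ?_
    refine ((PD.dl k (n := d + d) (((PD.id.mulc _).mono (by omega)).add
      (PD.sum _ fun j' => PD.ML2 d _ (lin _ _) (lin _ _)))).cmul _).mul (PD.ML1 d _ (lin _ _))
  have hφ0 : ∀ c, φ m c 0 = -(s : ZMod q) * (dig 2 (H v j g0 NA) c : ZMod q) := fun c => by
    have z : ∀ β : ℕ → ZMod q, ((fun _ => (0 : ZMod q)) + β) = β := fun β => by
      funext c; simp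
    simp only [φ, zero_mul, z, zero_add, ML1_bits hNA]
    have e : ∀ g, ∑ j' ∈ range k, ML2 d (err v j' g) (bits d NA : ℕ → ZMod q) (bits d (NB j')) =
        ((∑ j' ∈ range k, err v j' g NA (NB j') : ℕ) : ZMod q) := fun g => by
      rw [Nat.cast_sum]
      exact sum_congr rfl fun j' hj => ML2_bits hNA (hNB j' (mem_range.1 hj)) _
    have le : ∀ g, ∑ j' ∈ range k, err v j' g NA (NB j') ≤ k := fun g => by
      simpa using sum_le_card_nsmul (range k) _ 1 (fun j' _ => herr j' g NA (NB j'))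
    simp only [e, dl_cast hk (le _)]
    rw [sum_eq_single_of_mem g0 (mem_range.2 hg0), if_pos (sum_eq_zero fun j' hj =>
      h0 j' (mem_range.1 hj)), mul_one]
    intro g hg hne
    obtain ⟨j', hj, h2⟩ := h1 g (mem_range.1 hg) hne
    rw [if_neg (fun h => h2 (sum_eq_zero_iff.1 h j' (mem_range.2 hj))), mul_zero, zero_mul]
  funext i
  simp only [addR, Finset.sum_apply, Pi.smul_apply, smul_eq_mul]
  split_ifs
  · rw [(hφ _).interp hdeg, hφ0, bits, cut, if_pos (Nat.mod_lt _ hd)]; ring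
  · rfl

end

/-- The hypotheses under which the catalytic program computes the values `N v j`. -/
structure Sys (q d k G a V : ℕ) (L : ℕ → ℕ) (err : ℕ → ℕ → ℕ → ℕ → ℕ → ℕ)
    (H : ℕ → ℕ → ℕ → ℕ → ℕ) (N0 : ℕ → ℕ) (N : ℕ → ℕ → ℕ) : Prop where
  hd : 0 < d
  hk : k < q
  hdeg : k * (d + d) + d < q - 1
  L0 : L 0 = 1
  LS : ∀ v < V, L (v + 1) = (q - 1) * lP k G (L v) (L (v / a * a))
  lt : ∀ v ≤ V, ∀ j < k, N v j < 2 ^ d
  zero : ∀ j < k, N 0 j = N0 j
  le : ∀ v j g x y, err v j g x y ≤ 1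
  step : ∀ v < V, ∀ j < k, ∃ g0 < G, (∀ j' < k, err v j' g0 (N v j) (N (v / a * a) j') = 0) ∧
    H v j g0 (N v j) = N (v + 1) j ∧
    ∀ g < G, g ≠ g0 → ∃ j' < k, err v j' g (N v j) (N (v / a * a) j') ≠ 0

theorem Sys.run {q d k G a V L err H N0 N} [Fact q.Prime] (h : Sys q d k G a V L err H N0 N)
    (v : ℕ) : v ≤ V → ∀ n, v < n → ∀ j < k, ∀ o < 3, ∀ (s : ℕ) (m : ℕ → ZMod q),
    run (fun st => exM q d k err H N0 ((dstep q k G a L)^[n] st)) (fun i => (0, v, j, o, s, i))
      (L v) m = addR d o ((s : ZMod q) • bits d (N v j)) m := by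
  induction v using Nat.strong_induction_on with
  | _ v ih =>
  intro hv n hn j hj o ho s m
  obtain ⟨n, rfl⟩ : ∃ n', n = n' + 1 := ⟨n - 1, by omega⟩
  have hfix : ∀ st : DS, st.1 ≠ 0 → (dstep q k G a L)^[n] st = st := fun st h =>
    Function.iterate_fixed (by simp [dstep, h]) n
  cases v with
  | zero =>
    rw [h.L0, h.zero j hj]
    change exM q d k err H N0 ((dstep q k G a L)^[n + 1] (0, 0, j, o, s, 0)) m = _
    rw [Function.iterate_succ_apply, hfix _ (by simp [dstep])]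
    simp [dstep, exM]
  | succ v =>
    obtain ⟨g0, hg0, h1, h2, h3⟩ := h.step v hv j hj
    have hb : v / a * a ≤ v := Nat.div_mul_le_self _ _
    rw [h.LS v hv, ← h2, ← run_body (ex := fun st => exM q d k err H N0 ((dstep q k G a L)^[n] st))
      (fun st m hs => by rw [hfix st hs]) h.hd ho (LB := L (v / a * a)) (bv := v / a * a)
      (NB := N (v / a * a))
      (fun j' hj' s m => ih _ (by omega) (by omega) n (by omega) j' hj' _ (by omega) s m)
      h.hk h.hdeg (LA := L v)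
      (fun s m => ih v (by omega) (by omega) n (by omega) j hj _ (by omega) s m)
      (h.lt v (by omega) j hj) (h.lt _ (by omega)) (h.le v) hg0 h1 h3 s m]
    rfl

end Vale.Agent.P312
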