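import Vale.Agent.P312.Tape

/-! The value system of the block visits, and the count of boundary crossings. -/

namespace Vale.Agent.P312

open Finset
open scoped Classical

variable {A : Type} {M : OneTape A}

noncomputable def NT (M : OneTape A) (x : List A) (off w T K a v j : ℕ) : ℕ :=
  ofd K (fun i => ctl M off (cfg M x off w T (v / a * (a * a) + i))) (v % a * a + 1) * ng M ^ w +
    blk M off w (cfg M x off w T (v / a * (a * a))) j

theorem NT_div (x : List A) (off w T K a v j : ℕ) : NT M x off w T K a v j / ng M ^ w =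
    ofd K (fun i => ctl M off (cfg M x off w T (v / a * (a * a) + i))) (v % a * a + 1) := by
  rw [NT, add_comm, Nat.add_mul_div_right _ _ (pow_pos (ng_pos M) _),
    Nat.div_eq_of_lt (blk_lt _ _ _ _), zero_add]

theorem NT_mod (x : List A) (off w T K a v j : ℕ) : NT M x off w T K a v j % ng M ^ w =
    blk M off w (cfg M x off w T (v / a * (a * a))) j := by
  rw [NT, add_comm, Nat.add_mul_mod_self_right, Nat.mod_eq_of_lt (blk_lt _ _ _ _)]

theorem errF_le (Z w T K Y a v j g x x' : ℕ) : errF M Z w T K Y a v j g x x' ≤ 1 := by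
  unfold errF sim
  generalize (v % a + 1) * a = R
  induction R with
  | zero => simp
  | succ R ih => rw [itr_succ]; split_ifs <;> simp [ih]

theorem N0F_eq (x : List A) {off w T K a Z : ℕ} (hZ : ng M ^ w ≤ Z) (j : ℕ) :
    NT M x off w T K a 0 j = N0F M x Z w off (ng M ^ w) j := by
  have e : ofd (ng M) (fun i => isym M x off (j * w + i)) w = blk M off w (M.init x) j := by
    refine ofd_congr fun i _ => ?_
    simp only [isym, OneTape.init]
    split_ifs with h1 h2 h2
    · omega
    · rfl
    · rw [show (((j * w + i : ℕ) : ℤ) - off).toNat = j * w + i - off by omega, inSym]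
      cases x[j * w + i - off]? <;> rfl
    · omega
  rw [N0F, e, md_of_lt ((blk_lt _ _ _ _).trans_le hZ)]
  simp [NT, ofd, cfg, ctl, pos, OneTape.init]

theorem NT_step {x : List A} {a r T Z v : ℕ} (hr : r < a * a) (hZ : ng M ^ (a * a) ≤ Z)
    (hZ' : (nq M * (2 * (a * a * a) + 1) * (a * a)) ^ (a * a + 1) ≤ Z) (hv : v < a * a) (j : ℕ) :
    let K := nq M * (2 * (a * a * a) + 1) * (a * a)
    let N := NT M x (a * a * a * (a * a) + r) (a * a) T K a
    ∃ g0 < K ^ a, (∀ j' < 2 * (a * a * a) + 1,
      errF M Z (a * a) T K (ng M ^ (a * a)) a v j' g0 (N v j) (N (v / a * a) j') = 0) ∧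
    HF M Z (a * a) T K (ng M ^ (a * a)) a v j g0 (N v j) = N (v + 1) j ∧
    ∀ g < K ^ a, g ≠ g0 → ∃ j' < 2 * (a * a * a) + 1,
      errF M Z (a * a) T K (ng M ^ (a * a)) a v j' g (N v j) (N (v / a * a) j') ≠ 0 := by
  intro K N
  have ha : 0 < a := by nlinarith
  have hu := Nat.mod_lt v ha
  have hi : v / a < a := (Nat.div_lt_iff_lt_mul ha).2 hv
  set c : ℕ → ℕ := fun i => ctl M (a * a * a * (a * a) + r)
    (cfg M x (a * a * a * (a * a) + r) (a * a) T (v / a * (a * a) + i)) with hc
  have hm : v / a * (a * a) + a * a ≤ a * a * a := by nlinarith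
  have hua : (v % a + 1) * a ≤ a * a := Nat.mul_le_mul_right _ hu
  have hua' : (v % a + 1) * a = v % a * a + a := by ring
  have hcK : ∀ i ≤ a * a, c i < K := fun i hi => ctl_lt hr hZ (by omega)
  have hP : ∀ g i, i ≤ v % a * a → ctlF K a (v % a) (N v j / ng M ^ (a * a)) g i = c i := by
    intro g i hi
    rw [ctlF, if_pos hi, NT_div, dig_ofd (fun i hi => hcK i (by omega)) (by omega)]
  have hg0 : ∀ i < a, c (v % a * a + 1 + i) < K := fun i hi => hcK _ (by omega)
  have hf0 : ∀ i ≤ (v % a + 1) * a, ctlF K a (v % a) (N v j / ng M ^ (a * a))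
      (ofd K (fun i => c (v % a * a + 1 + i)) a) i = c i := by
    intro i hi
    by_cases h : i ≤ v % a * a
    · exact hP _ i h
    · rw [ctlF, if_neg h, dig_ofd hg0 (by omega)]
      congr 1; omega
  have hb : v / a * a / a = v / a := Nat.mul_div_cancel _ ha
  refine ⟨ofd K (fun i => c (v % a * a + 1 + i)) a, ofd_lt hg0, fun j' _ => ?_, ?_,
    fun g hg hne => ?_⟩
  · rw [errF, NT_mod, hb, sim_true hr hZ (by omega) hf0]
  · unfold HF
    split_ifs with h
    · have e1 : (v + 1) / a = v / a := by
        rw [Nat.succ_div, if_neg, add_zero]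
        intro h'
        have := Nat.mod_eq_zero_of_dvd h'
        rw [← Nat.mod_add_mod, Nat.mod_eq_of_lt h] at this
        omega
      have e2 : (v + 1) % a = v % a + 1 := by
        rw [← Nat.mod_add_mod, Nat.mod_eq_of_lt h]
      have hlt : (v % a + 1) * a + a ≤ a * a := by nlinarith
      rw [ofd_congr (g := c) (fun i hi => hf0 i (by omega)), md_of_lt, NT_mod]
      · simp only [N, NT, e1, e2]; rfl
      · refine (ofd_lt fun i hi => hcK i (by omega)).trans_le (le_trans ?_ hZ')
        exact Nat.pow_le_pow_right (by have := hcK 0 (by omega); omega) (by omega)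
    · have e0 : v % a + 1 = a := by omega
      have e1 : (v + 1) / a = v / a + 1 := by
        rw [Nat.succ_div, if_pos]
        refine Nat.dvd_of_mod_eq_zero ?_
        rw [← Nat.mod_add_mod, e0, Nat.mod_self]
      have e2 : (v + 1) % a = 0 := by rw [← Nat.mod_add_mod, e0, Nat.mod_self]
      rw [e0] at hf0
      rw [hf0 _ le_rfl, NT_mod, sim_true hr hZ (by omega) hf0]
      simp only [N, NT, e1, e2, zero_mul, ofd, mul_zero, add_zero, add_mul, one_mul, c]
  · by_contra h
    push Not at h
    have h1 := sim_unique (x := x) (T := T) hr hZ (m := v / a * (a * a)) (R := (v % a + 1) * a)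
      (by omega) (f := ctlF K a (v % a) (N v j / ng M ^ (a * a)) g) (hP g 0 (by omega))
      (fun j' hj' => by
        have := h j' hj'
        rwa [errF, NT_mod, hb] at this)
    refine hne ((ofd_dig hg).symm.trans (ofd_congr fun i hi => ?_))
    have := h1 (v % a * a + 1 + i) (by omega)
    rw [ctlF, if_neg (by omega), show v % a * a + 1 + i - v % a * a - 1 = i by omega] at this
    exact this

theorem NT_lt {x : List A} {a r T Z v : ℕ} (hr : r < a * a) (hZ : ng M ^ (a * a) ≤ Z)
    (hv : v ≤ a * a) (j : ℕ) :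
    NT M x (a * a * a * (a * a) + r) (a * a) T (nq M * (2 * (a * a * a) + 1) * (a * a)) a v j <
      (nq M * (2 * (a * a * a) + 1) * (a * a)) ^ (a * a + 1) * ng M ^ (a * a) := by
  have ha : 0 < a := by nlinarith
  have hu := Nat.mod_lt v ha
  have hua : (v % a + 1) * a ≤ a * a := Nat.mul_le_mul_right _ hu
  have h0 : v / a * (a * a) + v % a * a ≤ a * a * a := by
    rcases Nat.lt_or_eq_of_le hv with hv | hv
    · have hi : v / a < a := (Nat.div_lt_iff_lt_mul ha).2 hv
      nlinarith
    · rw [hv, Nat.mul_div_cancel _ ha, Nat.mul_mod_left]; nlinarith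
  have h1 := ofd_lt (K := nq M * (2 * (a * a * a) + 1) * (a * a))
    (f := fun i => ctl M (a * a * a * (a * a) + r)
      (cfg M x (a * a * a * (a * a) + r) (a * a) T (v / a * (a * a) + i))) (m := v % a * a + 1)
    (fun i hi => ctl_lt hr hZ (by omega))
  have h2 : (nq M * (2 * (a * a * a) + 1) * (a * a)) ^ (v % a * a + 1) ≤
      (nq M * (2 * (a * a * a) + 1) * (a * a)) ^ (a * a + 1) :=
    Nat.pow_le_pow_right (by have := nq_pos M; positivity) (by nlinarith)
  have h3 := blk_lt (a * a * a * (a * a) + r) (a * a)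
    (cfg M x (a * a * a * (a * a) + r) (a * a) T (v / a * (a * a))) j
  unfold NT
  nlinarith

/-- crossing of a block boundary at step `s` -/
def Cr (M : OneTape A) (x : List A) (off w s : ℕ) : Prop :=
  pos M off (M.step^[s + 1] (M.init x)) / w ≠ pos M off (M.step^[s] (M.init x)) / w

theorem stepIn_iter (x : List A) (off w τ i : ℕ) :
    ((stepIn M off w (pos M off (M.step^[τ] (M.init x)) / w))^[i] (M.step^[τ] (M.init x)) =
      M.step^[τ + i] (M.init x) ∧
      pos M off (M.step^[τ + i] (M.init x)) / w = pos M off (M.step^[τ] (M.init x)) / w) ∨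
    ∃ τ', τ ≤ τ' ∧ (stepIn M off w (pos M off (M.step^[τ] (M.init x)) / w))^[i]
      (M.step^[τ] (M.init x)) = M.step^[τ' + 1] (M.init x) ∧ Cr M x off w τ' ∧
      pos M off (M.step^[τ' + 1] (M.init x)) / w ≠ pos M off (M.step^[τ] (M.init x)) / w := by
  induction i with
  | zero => exact Or.inl ⟨rfl, rfl⟩
  | succ i ih =>
    rw [Function.iterate_succ_apply']
    rcases ih with ⟨h1, h2⟩ | ⟨τ', h1, h2, h3, h4⟩
    · rw [h1, stepIn, if_pos h2, ← Function.iterate_succ_apply' M.step]
      by_cases h : pos M off (M.step^[τ + i + 1] (M.init x)) / w =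
          pos M off (M.step^[τ] (M.init x)) / w
      · exact Or.inl ⟨rfl, h⟩
      · exact Or.inr ⟨τ + i, by omega, rfl, by rw [Cr, h2]; exact h, h⟩
    · refine Or.inr ⟨τ', h1, ?_, h3, h4⟩
      rw [h2, stepIn, if_neg h4]

theorem cfg_run (x : List A) (off w T m : ℕ) : ∃ τ, cfg M x off w T m = M.step^[τ] (M.init x) := by
  induction m with
  | zero => exact ⟨0, rfl⟩
  | succ m ih =>
    obtain ⟨τ, h⟩ := ih
    rw [cfg, Function.iterate_succ_apply', ← cfg, round, h]
    rcases stepIn_iter x off w τ T with ⟨h1, _⟩ | ⟨τ', _, h1, _⟩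
    · exact ⟨_, h1⟩
    · exact ⟨_, h1⟩

theorem halt_stay {x : List A} {t s : ℕ} (h : (M.out (M.step^[t] (M.init x)).state).isSome = true)
    (hs : t ≤ s) : M.step^[s] (M.init x) = M.step^[t] (M.init x) := by
  obtain ⟨i, rfl⟩ := Nat.exists_eq_add_of_le' hs
  rw [Function.iterate_add_apply, Function.iterate_fixed (step_halt h)]

theorem cfg_halt {x : List A} {off w T t n : ℕ}
    (h : (M.out (M.step^[t] (M.init x)).state).isSome = true) (hT : t ≤ T)
    (hn : ((range t).filter (Cr M x off w)).card < n) :
    cfg M x off w T n = M.step^[t] (M.init x) := by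
  have key : ∀ m, ∃ τ, cfg M x off w T m = M.step^[τ] (M.init x) ∧
      (t ≤ τ ∨ m ≤ ((range τ).filter (Cr M x off w)).card) := by
    intro m
    induction m with
    | zero => exact ⟨0, rfl, Or.inr (Nat.zero_le _)⟩
    | succ m ih =>
      obtain ⟨τ, h1, h2⟩ := ih
      rw [cfg, Function.iterate_succ_apply', ← cfg, round, h1]
      rcases stepIn_iter x off w τ T with ⟨h3, _⟩ | ⟨τ', h3, h4, h5, _⟩
      · exact ⟨_, h3, Or.inl (by omega)⟩
      · refine ⟨_, h4, h2.imp (fun h => by omega) fun h => ?_⟩
        rw [range_add_one, filter_insert, if_pos h5, card_insert_of_notMem (by simp)]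
        have := card_le_card (filter_subset_filter (Cr M x off w) (range_subset_range.2 h3))
        omega
  obtain ⟨τ, h1, h2⟩ := key n
  rw [h1]
  rcases le_total t τ with h3 | h3
  · exact halt_stay h h3
  · have := card_le_card (filter_subset_filter (Cr M x off w) (range_subset_range.2 h3))
    rcases h2 with h2 | h2
    · exact halt_stay h h2
    · omega

theorem head_ge (x : List A) (s : ℕ) : -(s : ℤ) ≤ (M.step^[s] (M.init x)).head := by
  induction s with
  | zero => simp [OneTape.init]
  | succ s ih =>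
    rw [Function.iterate_succ_apply']
    have := (step_head (M.step^[s] (M.init x))).1
    push_cast; omega

theorem div_uniq {p w r r' : ℕ} (hr : r < w) (hr' : r' < w) (h : (p + r + 1) / w ≠ (p + r) / w)
    (h' : (p + r' + 1) / w ≠ (p + r') / w) : r = r' := by
  rw [Nat.succ_div] at h h'
  have d1 : w ∣ p + r + 1 := by by_contra hh; simp [hh] at h
  have d2 : w ∣ p + r' + 1 := by by_contra hh; simp [hh] at h'
  rcases le_total r r' with hh | hh
  · have := Nat.dvd_sub d2 d1
    have := Nat.eq_zero_of_dvd_of_lt this (by omega)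
    omega
  · have := Nat.dvd_sub d1 d2
    have := Nat.eq_zero_of_dvd_of_lt this (by omega)
    omega

theorem exists_shift (M : OneTape A) (x : List A) {n w t : ℕ} (ht : t < n * w) :
    ∃ r < w, ((range t).filter (Cr M x (n * w + r) w)).card < n := by
  by_contra h
  push Not at h
  have h1 : ∑ r ∈ range w, ((range t).filter (Cr M x (n * w + r) w)).card ≤ t := by
    simp only [card_filter]
    rw [sum_comm]
    refine (sum_le_card_nsmul _ _ 1 fun s hs => ?_).trans (by simp)
    rw [← card_filter, card_le_one]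
    intro r hr r' hr'
    rw [mem_filter] at hr hr'
    simp only [mem_range, Cr, pos] at hr hr' hs
    have h2 := head_ge (M := M) x s
    have h3 := step_head (M.step^[s] (M.init x))
    rw [← Function.iterate_succ_apply' M.step] at h3
    simp only [Nat.succ_eq_add_one] at h3
    generalize (M.step^[s + 1] (M.init x)).head = y at *
    generalize (M.step^[s] (M.init x)).head = z at *
    generalize n * w = N at *
    rcases (by omega : y = z - 1 ∨ y = z ∨ y = z + 1) with rfl | rfl | rfl
    · refine div_uniq (p := (z + N - 1).toNat) hr.1 hr'.1 ?_ ?_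
      · convert hr.2.symm using 2 <;> push_cast <;> omega
      · convert hr'.2.symm using 2 <;> push_cast <;> omega
    · exact absurd rfl hr.2
    · refine div_uniq (p := (z + N).toNat) hr.1 hr'.1 ?_ ?_
      · convert hr.2 using 2 <;> push_cast <;> omega
      · convert hr'.2 using 2 <;> push_cast <;> omega
  have h2 := card_nsmul_le_sum (range w) _ n fun r hr => h r (mem_range.1 hr)
  simp only [card_range, smul_eq_mul] at h2
  rw [mul_comm] at h2
  omega

end Vale.Agent.P312
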