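import Mathlib

/-! Turing machine models for the simulation of one-tape time by space. -/

namespace Vale.Agent.P312

/-- A head movement: one cell left, no movement, one cell right. -/
inductive Move
  | left
  | stay
  | right

/-- Displacement of a head on a two-way infinite tape. -/
def Move.toInt : Move → ℤ
  | .left => -1
  | .stay => 0
  | .right => 1

/-- A deterministic one-tape Turing machine with input alphabet `A`: finite state set `Q`, finite
tape alphabet `Γ`; `out q = some b` marks `q` as halting with verdict `b`. -/
structure OneTape (A : Type) where
  Q : Type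
  Γ : Type
  finQ : Finite Q
  finΓ : Finite Γ
  blank : Γ
  inp : A → Γ
  start : Q
  out : Q → Option Bool
  δ : Q → Γ → Q × Γ × Move

/-- Configuration of a one-tape machine: state, two-way infinite tape, head position. -/
structure OneTape.Cfg {A : Type} (M : OneTape A) where
  state : M.Q
  tape : ℤ → M.Γ
  head : ℤ

/-- Initial configuration: the input occupies cells `0, …, |x|-1`, all other cells are blank. -/
def OneTape.init {A : Type} (M : OneTape A) (x : List A) : M.Cfg where
  state := M.start
  tape := fun z => if 0 ≤ z then (x[z.toNat]?).elim M.blank M.inp else M.blank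
  head := 0

/-- One step; halted configurations do not change. -/
def OneTape.step {A : Type} (M : OneTape A) (c : M.Cfg) : M.Cfg :=
  if (M.out c.state).isSome then c
  else
    { state := (M.δ c.state (c.tape c.head)).1
      tape := Function.update c.tape c.head (M.δ c.state (c.tape c.head)).2.1
      head := c.head + (M.δ c.state (c.tape c.head)).2.2.toInt }

/-- Languages decided by a one-tape machine halting within `t n` steps on inputs of length `n`. -/
def TIME1 (A : Type) (t : ℕ → ℕ) : Set (Set (List A)) :=
  {L | ∃ M : OneTape A, ∀ x : List A, ∃ b : Bool,
    M.out (M.step^[t x.length] (M.init x)).state = some b ∧ (b = true ↔ x ∈ L)}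

/-- Symbols of the read-only input tape: left endmarker, right endmarker, input letters. -/
inductive InSym (A : Type)
  | lend
  | rend
  | ch (a : A)

/-- The symbol at position `p` of the input tape holding `x` between endmarkers. -/
def inSym {A : Type} (x : List A) : ℕ → InSym A
  | 0 => .lend
  | p + 1 => (x[p]?).elim .rend .ch

/-- Movement of the input head, which stays on positions `0, …, n+1`. -/
def Move.onInput : Move → ℕ → ℕ → ℕ
  | .left, _, p => p - 1
  | .stay, _, p => p
  | .right, n, p => min (p + 1) (n + 1)

/-- A deterministic multitape Turing machine with a read-only input tape and `k` work tapes. -/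
structure MultiTape (A : Type) where
  k : ℕ
  Q : Type
  Γ : Type
  finQ : Finite Q
  finΓ : Finite Γ
  blank : Γ
  start : Q
  out : Q → Option Bool
  δ : Q → InSym A → (Fin k → Γ) → Q × Move × (Fin k → Γ × Move)

/-- Configuration: state, input head position, work tapes and work heads. -/
structure MultiTape.Cfg {A : Type} (M : MultiTape A) where
  state : M.Q
  pos : ℕ
  tapes : Fin M.k → ℤ → M.Γ
  heads : Fin M.k → ℤ

/-- Initial configuration: blank work tapes. -/
def MultiTape.init {A : Type} (M : MultiTape A) : M.Cfg where
  state := M.start
  pos := 0
  tapes := fun _ _ => M.blank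
  heads := fun _ => 0

/-- One step on input `x`; halted configurations do not change. -/
def MultiTape.step {A : Type} (M : MultiTape A) (x : List A) (c : M.Cfg) : M.Cfg :=
  if (M.out c.state).isSome then c
  else
    { state := (M.δ c.state (inSym x c.pos) (fun i => c.tapes i (c.heads i))).1
      pos := (M.δ c.state (inSym x c.pos) (fun i => c.tapes i (c.heads i))).2.1.onInput
        x.length c.pos
      tapes := fun i => Function.update (c.tapes i) (c.heads i)
        ((M.δ c.state (inSym x c.pos) (fun i => c.tapes i (c.heads i))).2.2 i).1
      heads := fun i => c.heads i +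
        ((M.δ c.state (inSym x c.pos) (fun i => c.tapes i (c.heads i))).2.2 i).2.toInt }

/-- Languages decided by a multitape machine that halts on every input and whose work heads visit
at most `C * (s n + 1)` work-tape cells on inputs of length `n`. -/
def SPACE (A : Type) (s : ℕ → ℝ) : Set (Set (List A)) :=
  {L | ∃ (M : MultiTape A) (C : ℝ), ∀ x : List A,
    (∃ (m : ℕ) (b : Bool), M.out ((M.step x)^[m] M.init).state = some b ∧ (b = true ↔ x ∈ L)) ∧
    ∃ F : Finset (Fin M.k × ℤ), (F.card : ℝ) ≤ C * (s x.length + 1) ∧
      ∀ (m : ℕ) (i : Fin M.k), (i, ((M.step x)^[m] M.init).heads i) ∈ F}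

end Vale.Agent.P312
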