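import Vale.Agent.P312.Main

/-! Asymptotic form of the space bound. -/

namespace Vale.Agent.P312

variable {A : Type}

theorem params (c1 c2 : ℕ) : ∃ C : ℝ, 0 ≤ C ∧ ∀ t : ℕ, ∃ a l : ℕ, t < a * a * a * (a * a) ∧
    c1 * (2 * (a * a * a) + 1) * (a * a) < 2 ^ l ∧ c2 < 2 ^ l ∧
    ((a * a * (l * l) : ℕ) : ℝ) ≤ C * ((t : ℝ) ^ (2 / 5 : ℝ) * Real.log t ^ 2 + 1) := by
  refine ⟨16 * ((96 * c1 + c2 : ℕ) + 2) ^ 2, by positivity, fun t => ?_⟩
  have hex : ∃ b : ℕ, t < (b + 1) ^ 5 :=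
    ⟨t, lt_of_lt_of_le (Nat.lt_succ_self t) (Nat.le_self_pow (by norm_num) _)⟩
  obtain ⟨b, h1, h2⟩ : ∃ b : ℕ, t < (b + 1) ^ 5 ∧ b ^ 5 ≤ t := by
    refine ⟨Nat.find hex, Nat.find_spec hex, ?_⟩
    cases h : Nat.find hex with
    | zero => simp
    | succ b => exact not_lt.1 (Nat.find_min hex (by omega))
  have h3 : (b + 1) ^ 5 ≤ 32 * (t + 1) := by
    rcases Nat.eq_zero_or_pos b with h | h
    · simp [h]; omega
    · calc (b + 1) ^ 5 ≤ (2 * b) ^ 5 := Nat.pow_le_pow_left (by omega) 5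
        _ = 32 * b ^ 5 := by ring
        _ ≤ _ := by omega
  have h4 : t + 1 ≤ 2 ^ (Nat.log 2 t + 1) := Nat.lt_pow_succ_log_self (by norm_num) t
  have h5 : 96 * c1 + c2 < 2 ^ (96 * c1 + c2) := Nat.lt_two_pow_self
  have h6 : (96 * c1 + c2) * (t + 1) < 2 ^ (96 * c1 + c2 + (Nat.log 2 t + 1)) := by
    rw [pow_add]
    exact lt_of_le_of_lt (Nat.mul_le_mul_left _ h4) (Nat.mul_lt_mul_of_pos_right h5 (by positivity))
  refine ⟨b + 1, 96 * c1 + c2 + (Nat.log 2 t + 1), by convert h1 using 1; ring, ?_, ?_, ?_⟩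
  · refine lt_of_le_of_lt ?_ h6
    have : (2 * ((b + 1) * (b + 1) * (b + 1)) + 1) * ((b + 1) * (b + 1)) ≤ 3 * (b + 1) ^ 5 := by
      have : 1 ≤ (b + 1) * (b + 1) * (b + 1) := Nat.one_le_iff_ne_zero.2 (by positivity)
      calc _ ≤ (3 * ((b + 1) * (b + 1) * (b + 1))) * ((b + 1) * (b + 1)) :=
          Nat.mul_le_mul_right _ (by omega)
        _ = _ := by ring
    calc _ = c1 * ((2 * ((b + 1) * (b + 1) * (b + 1)) + 1) * ((b + 1) * (b + 1))) := by ring
      _ ≤ c1 * (96 * (t + 1)) := Nat.mul_le_mul_left _ (by omega)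
      _ ≤ _ := by nlinarith [Nat.zero_le (c2 * (t + 1))]
  · exact lt_of_le_of_lt (by nlinarith [Nat.zero_le (c1 * (t + 1)), Nat.zero_le (c2 * t)]) h6
  · generalize 96 * c1 + c2 = c
    have hc : (0 : ℝ) ≤ c := Nat.cast_nonneg c
    have hs : 0 ≤ (t : ℝ) ^ (2 / 5 : ℝ) * Real.log t ^ 2 := by positivity
    push_cast
    rcases lt_or_ge t 2 with ht | ht
    · have hb : b ≤ 1 := by
        by_contra h
        have := Nat.pow_le_pow_left (show 2 ≤ b by omega) 5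
        omega
      have hb' : (b : ℝ) ≤ 1 := by exact_mod_cast hb
      have hb0 : (0 : ℝ) ≤ b := Nat.cast_nonneg b
      rw [Nat.log_of_lt ht]
      have : ((b : ℝ) + 1) * (b + 1) ≤ 4 := by nlinarith
      calc _ ≤ 4 * (((c : ℝ) + 2) * (c + 2)) := by
            refine mul_le_mul this (by push_cast; nlinarith) (by positivity) (by norm_num)
        _ ≤ 16 * ((c : ℝ) + 2) ^ 2 * 1 := by nlinarith
        _ ≤ _ := mul_le_mul_of_nonneg_left (by linarith) (by positivity)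
    · have ht' : (2 : ℝ) ≤ t := by exact_mod_cast ht
      have hb : 1 ≤ b := by
        by_contra h
        rw [show b = 0 by omega] at h1
        omega
      have hb' : (1 : ℝ) ≤ b := by exact_mod_cast hb
      have e1 : (b : ℝ) ^ 2 ≤ (t : ℝ) ^ (2 / 5 : ℝ) := by
        have : ((b : ℝ) ^ 5) ^ (2 / 5 : ℝ) ≤ (t : ℝ) ^ (2 / 5 : ℝ) :=
          Real.rpow_le_rpow (by positivity) (by exact_mod_cast h2) (by norm_num)
        rw [← Real.rpow_natCast, ← Real.rpow_mul (by positivity)] at this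
        rw [← Real.rpow_natCast]
        convert this using 2; norm_num
      have l2 := Real.log_two_gt_d9
      have e2 : Real.log 2 ≤ Real.log t := Real.log_le_log (by norm_num) ht'
      have e3 : (Nat.log 2 t : ℝ) * Real.log 2 ≤ Real.log t := by
        rw [← Real.log_pow]
        refine Real.log_le_log (by positivity) ?_
        exact_mod_cast Nat.pow_log_le_self 2 (by omega)
      have hL : (0 : ℝ) ≤ Nat.log 2 t := Nat.cast_nonneg _
      have e4 : (c : ℝ) + (Nat.log 2 t + 1) ≤ 2 * (c + 2) * Real.log t := by nlinarith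
      have e5 : ((b : ℝ) + 1) * (b + 1) ≤ 4 * (t : ℝ) ^ (2 / 5 : ℝ) := by nlinarith
      calc _ ≤ (4 * (t : ℝ) ^ (2 / 5 : ℝ)) * ((2 * (c + 2) * Real.log t) * (2 * (c + 2) * Real.log t)) :=
            mul_le_mul e5 (mul_le_mul e4 e4 (by positivity) (by linarith)) (by positivity)
              (by positivity)
        _ = 16 * ((c : ℝ) + 2) ^ 2 * ((t : ℝ) ^ (2 / 5 : ℝ) * Real.log t ^ 2) := by ring
        _ ≤ _ := mul_le_mul_of_nonneg_left (by linarith) (by positivity)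

theorem time_sub_space (t : ℕ → ℕ) (ht : ∀ n, n ≤ t n) :
    TIME1 A t ⊆ SPACE A (fun n => (t n : ℝ) ^ (2 / 5 : ℝ) * Real.log (t n) ^ 2) := by
  rintro L ⟨M, hM⟩
  obtain ⟨M', C, h⟩ := simulate M
  obtain ⟨C', hC', h'⟩ := params (nq M) (ng M)
  refine ⟨M', M'.k * (C * (C' + 1) + 1), fun x => ?_⟩
  obtain ⟨b, h1, h2⟩ := hM x
  obtain ⟨a, l, p1, p2, p3, p4⟩ := h' (t x.length)
  obtain ⟨⟨m, h3⟩, h4⟩ := h x _ a l b h1 (ht _) p1 p2 p3
  refine ⟨⟨m, b, h3, h2⟩, Finset.univ ×ˢ Finset.Icc (0 : ℤ) (C * (a * a * (l * l) + 1) : ℕ), ?_,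
    fun m i => by simpa using h4 m i⟩
  rw [Finset.card_product, Finset.card_univ, Fintype.card_fin, Int.card_Icc, sub_zero,
    ← Nat.cast_succ, Int.toNat_natCast]
  dsimp only
  have hs : 0 ≤ (t x.length : ℝ) ^ (2 / 5 : ℝ) * Real.log (t x.length) ^ 2 := by positivity
  generalize (t x.length : ℝ) ^ (2 / 5 : ℝ) * Real.log (t x.length) ^ 2 = s at *
  generalize a * a * (l * l) = E at *
  push_cast
  rw [mul_assoc]
  refine mul_le_mul_of_nonneg_left ?_ (Nat.cast_nonneg _)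
  have : (C : ℝ) * (E + 1) ≤ C * ((C' + 1) * (s + 1)) :=
    mul_le_mul_of_nonneg_left (by nlinarith) (Nat.cast_nonneg _)
  nlinarith

theorem space_mono {s s' : ℕ → ℝ} {c : ℝ} (hc : 0 ≤ c) (h0 : ∀ n, 0 ≤ s n) (h0' : ∀ n, 0 ≤ s' n)
    (h : ∀ n, s n ≤ c * s' n) : SPACE A s ⊆ SPACE A s' := by
  rintro L ⟨M, C, hM⟩
  refine ⟨M, |C| * (c + 1), fun x => ⟨(hM x).1, ?_⟩⟩
  obtain ⟨F, h1, h2⟩ := (hM x).2
  refine ⟨F, h1.trans ?_, h2⟩
  have := h0 x.length
  have := h0' x.length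
  have := h x.length
  calc _ ≤ |C| * (s x.length + 1) := mul_le_mul_of_nonneg_right (le_abs_self C) (by linarith)
    _ ≤ |C| * ((c + 1) * (s' x.length + 1)) :=
      mul_le_mul_of_nonneg_left (by nlinarith) (abs_nonneg C)
    _ = _ := by ring

theorem time_sub_space' {e : ℝ} (he : 2 / 5 < e) (t : ℕ → ℕ) (ht : ∀ n, n ≤ t n) :
    TIME1 A t ⊆ SPACE A (fun n => (t n : ℝ) ^ e) := by
  have hε : 0 < (e - 2 / 5) / 2 := by linarith
  refine (time_sub_space t ht).trans (space_mono (c := (((e - 2 / 5) / 2)⁻¹) ^ 2) (by positivity)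
    (fun n => by positivity) (fun n => by positivity) fun n => ?_)
  have h0 : (0 : ℝ) ≤ t n := Nat.cast_nonneg _
  have h1 := Real.log_le_rpow_div h0 hε
  have h2 := Real.log_natCast_nonneg (t n)
  have h3 : (t n : ℝ) ^ e = (t n : ℝ) ^ (2 / 5 : ℝ) * ((t n : ℝ) ^ ((e - 2 / 5) / 2)) ^ 2 := by
    rw [sq, ← Real.rpow_add' h0 (by linarith), ← Real.rpow_add' h0 (by linarith)]
    congr 1; ring
  rw [h3, mul_left_comm, ← mul_pow]
  refine mul_le_mul_of_nonneg_left (pow_le_pow_left₀ h2 ?_ 2) (by positivity)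
  rwa [mul_comm, ← div_eq_mul_inv]

end Vale.Agent.P312
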