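import Vale.Agent.P312.Raw

/-! Functions computable by stack programs in space linear in the size of the arguments. -/

namespace Vale.Agent.P312

class Enc (A α : Type) where
  dim : ℕ
  enc : α → List ℕ
  len : ∀ a, (enc a).length = dim
  ok : α → List A → Prop

structure Wd (A : Type) where
  x : List A

instance encNat (A : Type) : Enc A ℕ := ⟨1, fun n => [n], fun _ => rfl, fun _ _ => True⟩
instance encWd (A : Type) : Enc A (Wd A) := ⟨0, fun _ => [], fun _ => rfl, fun w x => w.x = x⟩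
instance encProd (A α β : Type) [Enc A α] [Enc A β] : Enc A (α × β) :=
  ⟨Enc.dim A α + Enc.dim A β, fun p => Enc.enc A p.1 ++ Enc.enc A p.2,
    fun p => by rw [List.length_append, Enc.len, Enc.len],
    fun p x => Enc.ok p.1 x ∧ Enc.ok p.2 x⟩

def nrm (A : Type) {α : Type} [Enc A α] (a : α) : ℕ := (Enc.enc A a).foldr max 0

theorem foldr_max_append (l l' : List ℕ) :
    (l ++ l').foldr max 0 = max (l.foldr max 0) (l'.foldr max 0) := by
  induction l with
  | nil => simp
  | cons a l ih => simp only [List.cons_append, List.foldr_cons, ih, max_assoc]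

theorem getD_le (l : List ℕ) (i : ℕ) : l.getD i 0 ≤ l.foldr max 0 := by
  induction l generalizing i with
  | nil => simp
  | cons a l ih =>
    cases i with
    | zero => simp
    | succ i => exact (ih i).trans (by simp)

theorem foldr_le {l : List ℕ} {m : ℕ} (h : ∀ i < l.length, l.getD i 0 ≤ m) : l.foldr max 0 ≤ m := by
  induction l with
  | nil => simp
  | cons a l ih =>
    simp only [List.foldr_cons, max_le_iff]
    exact ⟨h 0 (by simp), ih fun i hi => h (i + 1) (by simpa using hi)⟩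

variable {A α β γ : Type} [Enc A α] [Enc A β] [Enc A γ]

@[simp] theorem nrm_nat (n : ℕ) : nrm A n = n := by simp [nrm, Enc.enc]
@[simp] theorem nrm_wd (w : Wd A) : nrm A w = 0 := rfl
@[simp] theorem nrm_prod (a : α) (b : β) : nrm A (a, b) = max (nrm A a) (nrm A b) :=
  foldr_max_append _ _

def bnd (x : List A) (a : α) : ℕ := x.length + nrm A a + 2

theorem two_le_bnd (x : List A) (a : α) : 2 ≤ bnd x a := by unfold bnd; omega

theorem pw_mono {X i j : ℕ} (hX : 2 ≤ X) (h : i ≤ j) : X ^ i ≤ X ^ j :=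
  Nat.pow_le_pow_right (by omega) h

theorem pw_add {X u v i j : ℕ} (hX : 2 ≤ X) (hu : u ≤ X ^ i) (hv : v ≤ X ^ j) :
    u + v ≤ X ^ (i + j + 1) := by
  have h1 := pw_mono hX (show i ≤ i + j by omega)
  have h2 := pw_mono hX (show j ≤ i + j by omega)
  rw [pow_succ]; nlinarith

/-- The program `p` computes the values `f` into registers starting at `fr`. -/
def Spec (C : ℕ) (P : α → St → ℕ → Prop) : Prop :=
  ∀ (ins : List ℕ) (fr : ℕ), ins.length = Enc.dim A α → (∀ r ∈ ins, r < fr) →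
    ∃ p : Prog A, ∀ (a : α) (x : List A) (σ : St) (S : ℕ), Enc.ok a x →
      ins.map (fun r => val (σ.reg r)) = Enc.enc A a → bnd x a ^ C < 2 ^ S →
      ∃ σ', Exec x S p σ σ' ∧ P a σ' fr ∧ ∀ r < fr, σ'.reg r = σ.reg r

theorem Spec.mono {C C' : ℕ} {P : α → St → ℕ → Prop} (h : Spec (A := A) C P) (hC : C ≤ C') :
    Spec (A := A) C' P := by
  intro ins fr h1 h2
  obtain ⟨p, hp⟩ := h ins fr h1 h2
  exact ⟨p, fun a x σ S h3 h4 h5 => hp a x σ S h3 h4
    (lt_of_le_of_lt (pw_mono (two_le_bnd x a) hC) h5)⟩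

def PB (A : Type) {α : Type} [Enc A α] (C : ℕ) (f : α → ℕ) : Prop :=
  ∀ a (x : List A), Enc.ok a x → f a ≤ bnd x a ^ C

theorem PB.mono {C C' : ℕ} {f : α → ℕ} (h : PB A C f) (hC : C ≤ C') : PB A C' f :=
  fun a x hx => (h a x hx).trans (pw_mono (two_le_bnd x a) hC)

def LS1 (A : Type) {α : Type} [Enc A α] (f : α → ℕ) : Prop :=
  ∃ C, PB A C f ∧ Spec (A := A) C (fun a σ fr => val (σ.reg fr) = f a)

@[fun_prop] def LS (A : Type) {α β : Type} [Enc A α] [Enc A β] (f : α → β) : Prop :=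
  (∀ a (x : List A), Enc.ok a x → Enc.ok (f a) x) ∧
    ∀ i < Enc.dim A β, LS1 A (fun a => (Enc.enc A (f a)).getD i 0)

theorem ls_nat {f : α → ℕ} : LS A f ↔ LS1 A f := by
  constructor
  · intro h; exact h.2 0 (by simp [Enc.dim])
  · intro h
    refine ⟨fun _ _ _ => trivial, fun i hi => ?_⟩
    have : i = 0 := by simpa [Enc.dim] using hi
    subst this; exact h

theorem map_congr_lt {ins : List ℕ} {fr : ℕ} (h : ∀ r ∈ ins, r < fr) {σ σ' : St}
    (h' : ∀ r < fr, σ'.reg r = σ.reg r) :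
    ins.map (fun r => val (σ'.reg r)) = ins.map (fun r => val (σ.reg r)) :=
  List.map_congr_left fun r hr => by rw [h' r (h r hr)]

theorem multi (g : ℕ → α → ℕ) (m : ℕ) (h : ∀ i < m, LS1 A (g i)) :
    ∃ C, (∀ i < m, PB A C (g i)) ∧
      Spec (A := A) C (fun a σ fr => ∀ i < m, val (σ.reg (fr + i)) = g i a) := by
  induction m with
  | zero =>
    exact ⟨0, by simp, fun ins fr _ _ => ⟨skip, fun a x σ S _ _ _ =>
      ⟨σ, ex_skip σ, by simp, fun _ _ => rfl⟩⟩⟩
  | succ m ih =>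
    obtain ⟨C, h1, h2⟩ := ih fun i hi => h i (by omega)
    obtain ⟨C', h3, h4⟩ := h m (by omega)
    refine ⟨C + C', fun i hi => ?_, fun ins fr hl hf => ?_⟩
    · rcases Nat.lt_succ_iff_lt_or_eq.1 hi with hi | rfl
      · exact (h1 i hi).mono (by omega)
      · exact h3.mono (by omega)
    · obtain ⟨p, hp⟩ := (h2.mono (show C ≤ C + C' by omega)) ins fr hl hf
      obtain ⟨q, hq⟩ := (h4.mono (show C' ≤ C + C' by omega)) ins (fr + m) hl
        (fun r hr => by have := hf r hr; omega)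
      refine ⟨.seq p q, fun a x σ S ho he hS => ?_⟩
      obtain ⟨σ1, e1, v1, f1⟩ := hp a x σ S ho he hS
      obtain ⟨σ2, e2, v2, f2⟩ := hq a x σ1 S ho (by rw [map_congr_lt hf f1, he]) hS
      refine ⟨σ2, e1.seq e2, fun i hi => ?_, fun r hr => by rw [f2 r (by omega), f1 r hr]⟩
      rcases Nat.lt_succ_iff_lt_or_eq.1 hi with hi | rfl
      · rw [f2 _ (by omega), v1 i hi]
      · exact v2

theorem LS.multi {g : α → β} (h : LS A g) :
    ∃ C, PB A C (fun a => nrm A (g a)) ∧ Spec (A := A) C (fun a σ fr =>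
      (List.range' fr (Enc.dim A β)).map (fun r => val (σ.reg r)) = Enc.enc A (g a)) := by
  obtain ⟨C, h1, h2⟩ := P312.multi _ _ h.2
  refine ⟨C, fun a x hx => foldr_le fun i hi => h1 i (by rwa [Enc.len] at hi) a x hx,
    fun ins fr hl hf => ?_⟩
  obtain ⟨p, hp⟩ := h2 ins fr hl hf
  refine ⟨p, fun a x σ S ho he hS => ?_⟩
  obtain ⟨σ1, e1, v1, f1⟩ := hp a x σ S ho he hS
  refine ⟨σ1, e1, ?_, f1⟩
  refine List.ext_getElem (by simp [Enc.len]) fun i hi hi' => ?_
  have hi'' : i < Enc.dim A β := by rwa [Enc.len] at hi'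
  have := v1 i hi''
  simp only [List.getD_eq_getElem?_getD, List.getElem?_eq_getElem hi', Option.getD_some] at this
  simpa using this

theorem bnd_le {x : List A} {a : α} {b : β} {C : ℕ} (h : nrm A b ≤ bnd x a ^ C) :
    bnd x b ≤ bnd x a ^ (C + 2) := by
  have := pw_add (two_le_bnd x a) (u := bnd x a) (i := 1) (by simp) h
  have e : 1 + C + 1 = C + 2 := by ring
  rw [e] at this
  unfold bnd at this ⊢; omega

theorem LS1.comp {f : β → ℕ} {g : α → β} (hf : LS1 A f) (hg : LS A g) :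
    LS1 A (fun a => f (g a)) := by
  obtain ⟨C, h1, h2⟩ := hg.multi
  obtain ⟨C', h3, h4⟩ := hf
  have key : ∀ a (x : List A), Enc.ok a x → bnd x (g a) ^ C' ≤ bnd x a ^ ((C + 2) * C' + C) := by
    intro a x hx
    calc bnd x (g a) ^ C' ≤ (bnd x a ^ (C + 2)) ^ C' :=
          Nat.pow_le_pow_left (bnd_le (h1 a x hx)) _
      _ = bnd x a ^ ((C + 2) * C') := by rw [← pow_mul]
      _ ≤ _ := pw_mono (two_le_bnd x a) (by omega)
  refine ⟨(C + 2) * C' + C, fun a x hx => (h3 _ x (hg.1 a x hx)).trans (key a x hx),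
    fun ins fr hl hf => ?_⟩
  obtain ⟨p, hp⟩ := (h2.mono (show C ≤ (C + 2) * C' + C by omega)) ins fr hl hf
  set d := Enc.dim A β
  obtain ⟨q, hq⟩ := h4 (List.range' fr d) (fr + d + 1) (by simp [d])
    (fun r hr => by rw [List.mem_range'_1] at hr; omega)
  refine ⟨.seq p (.seq q (copy (fr + d + 1) fr (fr + d + 2))), fun a x σ S ho he hS => ?_⟩
  obtain ⟨σ1, e1, v1, f1⟩ := hp a x σ S ho he hS
  have hS' := lt_of_le_of_lt (key a x ho) hS
  obtain ⟨σ2, e2, v2, f2⟩ := hq (g a) x σ1 S (hg.1 a x ho) v1 hS'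
  have e3 := ex_copy (x := x) (S := S) (r := fr + d + 1) (s := fr) (t := fr + d + 2)
    (by omega) (by omega) (by omega) σ2
    (len_le (by rw [v2]; exact lt_of_le_of_lt (h3 _ x (hg.1 a x ho)) hS'))
  refine ⟨_, e1.seq (e2.seq e3), by simpa using v2, fun r hr => ?_⟩
  simp only [St.set_reg, if_neg (show r ≠ fr by omega), if_neg (show r ≠ fr + d + 2 by omega)]
  rw [f2 r (by omega), f1 r hr]

@[fun_prop] theorem LS.comp {f : β → γ} {g : α → β} (hf : LS A f) (hg : LS A g) :
    LS A (fun a => f (g a)) :=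
  ⟨fun a x hx => hf.1 _ x (hg.1 a x hx), fun i hi => (hf.2 i hi).comp hg⟩

theorem ls1_proj (i : ℕ) (hi : i < Enc.dim A α) : LS1 A (fun a : α => (Enc.enc A a).getD i 0) := by
  have hb : PB A 1 (fun a : α => (Enc.enc A a).getD i 0) := fun a x _ => by
    have := getD_le (Enc.enc A a) i
    simp only [bnd, nrm, pow_one]; omega
  refine ⟨1, hb, fun ins fr hl hf => ?_⟩
  have hi' : i < ins.length := by omega
  have hr := hf _ (List.getElem_mem hi')
  refine ⟨copy ins[i] fr (fr + 1), fun a x σ S ho he hS => ?_⟩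
  have hv : val (σ.reg ins[i]) = (Enc.enc A a).getD i 0 := by
    rw [← he]; simp [List.getD_eq_getElem?_getD, List.getElem?_eq_getElem hi']
  have e := ex_copy (x := x) (S := S) (r := ins[i]) (s := fr) (t := fr + 1)
    (by omega) (by omega) (by omega) σ (len_le (by rw [hv]; exact lt_of_le_of_lt (hb a x ho) hS))
  refine ⟨_, e, by simpa using hv, fun r hr => ?_⟩
  simp only [St.set_reg, if_neg (show r ≠ fr by omega), if_neg (show r ≠ fr + 1 by omega)]

@[fun_prop] theorem LS.id : LS A (fun a : α => a) := ⟨fun _ _ h => h, fun i hi => ls1_proj i hi⟩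

theorem LS1.of_eq {f g : α → ℕ} (h : LS1 A f) (e : ∀ a, f a = g a) : LS1 A g := by
  rwa [← funext e]

theorem LS.of_eq {f g : α → β} (h : LS A f) (e : ∀ a, f a = g a) : LS A g := by
  rwa [← funext e]

@[fun_prop] theorem LS.pair {f : α → β} {g : α → γ} (hf : LS A f) (hg : LS A g) :
    LS A (fun a => (f a, g a)) := by
  refine ⟨fun a x hx => ⟨hf.1 a x hx, hg.1 a x hx⟩, fun i hi => ?_⟩
  by_cases h : i < Enc.dim A β
  · refine (hf.2 i h).of_eq fun a => ?_
    change _ = (Enc.enc A (f a) ++ Enc.enc A (g a)).getD i 0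
    rw [List.getD_append _ _ _ _ (by rwa [Enc.len])]
  · change i < Enc.dim A β + Enc.dim A γ at hi
    refine (hg.2 (i - Enc.dim A β) (by omega)).of_eq fun a => ?_
    change _ = (Enc.enc A (f a) ++ Enc.enc A (g a)).getD i 0
    rw [List.getD_append_right _ _ _ _ (by rw [Enc.len]; omega), Enc.len]

theorem ls_fst : LS A (fun p : α × β => p.1) := by
  refine ⟨fun a x hx => hx.1, fun i hi => ?_⟩
  refine (ls1_proj (α := α × β) i (by change i < _ + _; omega)).of_eq fun a => ?_
  change (Enc.enc A a.1 ++ Enc.enc A a.2).getD i 0 = _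
  rw [List.getD_append _ _ _ _ (by rwa [Enc.len])]

theorem ls_snd : LS A (fun p : α × β => p.2) := by
  refine ⟨fun a x hx => hx.2, fun i hi => ?_⟩
  refine (ls1_proj (α := α × β) (Enc.dim A α + i) (by change _ < _ + _; omega)).of_eq fun a => ?_
  change (Enc.enc A a.1 ++ Enc.enc A a.2).getD _ 0 = _
  rw [List.getD_append_right _ _ _ _ (by rw [Enc.len]; omega), Enc.len, Nat.add_sub_cancel_left]

@[fun_prop] theorem LS.fst {f : α → β × γ} (hf : LS A f) : LS A (fun a => (f a).1) :=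
  ls_fst.comp hf
@[fun_prop] theorem LS.snd {f : α → β × γ} (hf : LS A f) : LS A (fun a => (f a).2) :=
  ls_snd.comp hf

theorem ls1_zero : LS1 A (fun _ : α => 0) :=
  ⟨0, fun _ _ _ => Nat.zero_le _, fun _ fr _ _ => ⟨clear fr, fun _ _ σ _ _ _ _ =>
    ⟨_, ex_clear fr σ, by simp [val], fun r hr => by simp [show r ≠ fr by omega]⟩⟩⟩

theorem ls1_succ : LS1 A (fun n : ℕ => n + 1) := by
  have hb : PB A 1 (fun n : ℕ => n + 1) := fun a x _ => by simp [bnd]; omega
  refine ⟨1, hb, fun ins fr hl hf => ?_⟩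
  obtain ⟨r, rfl⟩ := List.length_eq_one_iff.1 hl
  have hr : r < fr := hf r (by simp)
  refine ⟨.seq (copy r fr (fr + 1)) (succP fr (fr + 1)), fun a x σ S ho he hS => ?_⟩
  have hv : val (σ.reg r) = a := by simpa [Enc.enc] using he
  have hS' : a + 1 < 2 ^ S := lt_of_le_of_lt (hb a x ho) hS
  have e := ex_copy (x := x) (S := S) (r := r) (s := fr) (t := fr + 1)
    (by omega) (by omega) (by omega) σ (len_le (by omega))
  obtain ⟨l, hl, e2⟩ := ex_succ (x := x) (S := S) (r := fr) (t := fr + 1) (by omega)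
    ((σ.set (fr + 1) []).set fr (σ.reg r)) (by simpa [hv] using hS')
  refine ⟨_, e.seq e2, by simpa [hv] using hl, fun r hr => ?_⟩
  simp only [St.set_reg, if_neg (show r ≠ fr by omega), if_neg (show r ≠ fr + 1 by omega)]

theorem LS.succ {f : α → ℕ} (hf : LS A f) : LS A (fun a => f a + 1) :=
  (ls_nat.2 ls1_succ).comp hf

@[fun_prop] theorem LS.const (n : ℕ) : LS A (fun _ : α => n) := by
  induction n with
  | zero => exact ls_nat.2 ls1_zero
  | succ n ih => exact ih.succ

theorem LS1.ite {c f g : α → ℕ} (hc : LS1 A c) (hf : LS1 A f) (hg : LS1 A g) :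
    LS1 A (fun a => if c a = 0 then f a else g a) := by
  obtain ⟨C1, _, h2⟩ := hc
  obtain ⟨C2, h3, h4⟩ := hf
  obtain ⟨C3, h5, h6⟩ := hg
  refine ⟨C1 + C2 + C3, fun a x hx => ?_, fun ins fr hl hf => ?_⟩
  · dsimp only
    split_ifs
    · exact h3.mono (by omega) a x hx
    · exact h5.mono (by omega) a x hx
  obtain ⟨p1, hp1⟩ := (h2.mono (show C1 ≤ C1 + C2 + C3 by omega)) ins fr hl hf
  obtain ⟨p2, hp2⟩ := (h4.mono (show C2 ≤ C1 + C2 + C3 by omega)) ins fr hl hf
  obtain ⟨p3, hp3⟩ := (h6.mono (show C3 ≤ C1 + C2 + C3 by omega)) ins fr hl hf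
  refine ⟨.seq p1 (.ite (cNe fr) p3 p2), fun a x σ S ho he hS => ?_⟩
  obtain ⟨σ1, e1, v1, f1⟩ := hp1 a x σ S ho he hS
  by_cases h : c a = 0
  · obtain ⟨σ2, e2, v2, f2⟩ := hp2 a x σ1 S ho (by rw [map_congr_lt hf f1, he]) hS
    refine ⟨σ2, e1.seq (Exec.iteF ?_ e2), by simpa [h] using v2,
      fun r hr => by rw [f2 r hr, f1 r hr]⟩
    simp [val_eq_zero.1 (v1.trans h)]
  · obtain ⟨σ2, e2, v2, f2⟩ := hp3 a x σ1 S ho (by rw [map_congr_lt hf f1, he]) hS
    refine ⟨σ2, e1.seq (Exec.iteT ?_ e2), by simpa [h] using v2,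
      fun r hr => by rw [f2 r hr, f1 r hr]⟩
    have : σ1.reg fr ≠ [] := fun h' => h (by rw [← v1, h']; rfl)
    cases h' : σ1.reg fr with
    | nil => exact absurd h' this
    | cons b l => simp [h']

/-- bounded iteration with index -/
def itr {β : Type} (n : ℕ) (z : β) (f : ℕ → β → β) : β := Nat.rec z f n

@[simp] theorem itr_zero {β : Type} (z : β) (f : ℕ → β → β) : itr 0 z f = z := rfl
theorem itr_succ {β : Type} (n : ℕ) (z : β) (f : ℕ → β → β) :
    itr (n + 1) z f = f n (itr n z f) := rfl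

theorem LS1.itr {n z : α → ℕ} {f : α → ℕ → ℕ → ℕ} (hn : LS1 A n) (hz : LS1 A z)
    (hf : LS1 A (fun p : α × ℕ × ℕ => f p.1 p.2.1 p.2.2)) {C0 : ℕ}
    (hb : ∀ a (x : List A), Enc.ok a x → ∀ i ≤ n a, itr i (z a) (f a) ≤ bnd x a ^ C0) :
    LS1 A (fun a => itr (n a) (z a) (f a)) := by
  obtain ⟨C1, h1, h2⟩ := hn
  obtain ⟨C2, h3, h4⟩ := hz
  obtain ⟨C3, h5, h6⟩ := hf
  set C := (C0 + C1 + 1 + 2) * C3 + C0 + C1 + C2
  refine ⟨C, fun a x hx => (hb a x hx _ le_rfl).trans (pw_mono (two_le_bnd x a) (by omega)),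
    fun ins fr hl hf => ?_⟩
  obtain ⟨p1, hp1⟩ := (h2.mono (show C1 ≤ C by omega)) ins (fr + 2) hl
    (fun r hr => by have := hf r hr; omega)
  obtain ⟨p2, hp2⟩ := (h4.mono (show C2 ≤ C by omega)) ins fr hl hf
  obtain ⟨p3, hp3⟩ := h6 (ins ++ [fr + 1, fr]) (fr + 3)
    (by rw [List.length_append, hl]; rfl)
    (fun r hr => by
      rcases List.mem_append.1 hr with hr | hr
      · have := hf r hr; omega
      · simp at hr; omega)
  refine ⟨.seq p2 (.seq p1 (.seq (clear (fr + 1)) (rep (fr + 2) (fr + 4)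
    (.seq p3 (.seq (copy (fr + 3) fr (fr + 4)) (succP (fr + 1) (fr + 4))))))),
    fun a x σ S ho he hS => ?_⟩
  obtain ⟨σ1, e1, v1, f1⟩ := hp2 a x σ S ho he hS
  obtain ⟨σ2, e2, v2, f2⟩ := hp1 a x σ1 S ho (by rw [map_congr_lt hf f1, he]) hS
  have hX := two_le_bnd x a
  have hn : n a < 2 ^ S := lt_of_le_of_lt ((h1 a x ho).trans (pw_mono hX (by omega))) hS
  obtain ⟨σ3, e3, v3⟩ := ex_rep (x := x) (S := S) (c := fr + 2) (t := fr + 4) (by omega)
    (.seq p3 (.seq (copy (fr + 3) fr (fr + 4)) (succP (fr + 1) (fr + 4)))) (n a) hn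
    (fun i τ => val (τ.reg fr) = P312.itr i (z a) (f a) ∧ val (τ.reg (fr + 1)) = i ∧
      ∀ r < fr, τ.reg r = σ.reg r)
    (fun i τ l h => by
      refine ⟨by simpa using h.1, by simpa using h.2.1, fun r hr => ?_⟩
      simp only [St.set_reg, if_neg (show r ≠ fr + 2 by omega), if_neg (show r ≠ fr + 4 by omega)]
      exact h.2.2 r hr)
    (fun i hi τ h => by
      have hb1 := hb a x ho i hi.le
      have hb2 := hb a x ho (i + 1) hi
      have hnr : nrm A (a, i, P312.itr i (z a) (f a)) ≤ bnd x a ^ (C0 + C1 + 1) := by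
        simp only [nrm_prod, nrm_nat, max_le_iff]
        refine ⟨?_, (hi.le.trans (h1 a x ho)).trans (pw_mono hX (by omega)),
          hb1.trans (pw_mono hX (by omega))⟩
        have := pw_mono hX (show 1 ≤ C0 + C1 + 1 by omega)
        simp only [pow_one] at this
        unfold bnd at this ⊢; omega
      have hS3 : bnd x (a, i, P312.itr i (z a) (f a)) ^ C3 < 2 ^ S := by
        refine lt_of_le_of_lt ?_ hS
        calc _ ≤ (bnd x a ^ (C0 + C1 + 1 + 2)) ^ C3 := Nat.pow_le_pow_left (bnd_le hnr) _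
          _ = bnd x a ^ ((C0 + C1 + 1 + 2) * C3) := by rw [← pow_mul]
          _ ≤ _ := pw_mono hX (by omega)
      obtain ⟨τ1, d1, w1, g1⟩ := hp3 (a, i, P312.itr i (z a) (f a)) x τ S ⟨ho, trivial, trivial⟩
        (by
          rw [List.map_append, map_congr_lt hf h.2.2, he]
          simp only [List.map_cons, List.map_nil, h.1, h.2.1]; rfl) hS3
      have d2 := ex_copy (x := x) (S := S) (r := fr + 3) (s := fr) (t := fr + 4)
        (by omega) (by omega) (by omega) τ1
        (len_le (by rw [w1]; exact lt_of_le_of_lt (hb2.trans (pw_mono hX (by omega))) hS))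
      obtain ⟨l, hl, d3⟩ := ex_succ (x := x) (S := S) (r := fr + 1) (t := fr + 4) (by omega)
        ((τ1.set (fr + 4) []).set fr (τ1.reg (fr + 3)))
        (by simp [g1 (fr + 1) (by omega), h.2.1]; omega)
      refine ⟨_, d1.seq (d2.seq d3), ⟨by simpa [itr_succ] using w1, ?_, fun r hr => ?_⟩, ?_⟩
      · simpa [g1 (fr + 1) (by omega), h.2.1] using hl
      · simp only [St.set_reg, if_neg (show r ≠ fr by omega), if_neg (show r ≠ fr + 1 by omega),
          if_neg (show r ≠ fr + 4 by omega)]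
        rw [g1 r (by omega), h.2.2 r hr]
      · simpa using g1 (fr + 2) (by omega))
    (n a) le_rfl (σ2.set (fr + 1) []) (by simpa using v2)
    ⟨by simpa [f2 fr (by omega)] using v1, by simp [val], fun r hr => by
      simp only [St.set_reg, if_neg (show r ≠ fr + 1 by omega)]
      rw [f2 r (by omega), f1 r hr]⟩
  exact ⟨σ3, e1.seq (e2.seq ((ex_clear _ _).seq e3)), v3.1, v3.2.2⟩

theorem inSym_min (x : List A) (i : ℕ) : inSym x (min (i + 1) (x.length + 1)) = inSym x (i + 1) := by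
  rcases le_total i x.length with h | h
  · rw [min_eq_left (by omega)]
  · rw [min_eq_right (by omega)]
    simp [inSym, List.getElem?_eq_none h]

theorem ls1_inp (ψ : InSym A → Bool) :
    LS1 A (fun p : Wd A × ℕ => if ψ (inSym p.1.x (p.2 + 1)) then 1 else 0) := by
  refine ⟨1, fun a x _ => ?_, fun ins fr hl hf => ?_⟩
  · have := two_le_bnd x a
    dsimp only
    split_ifs <;> simp; omega
  obtain ⟨r, rfl⟩ := List.length_eq_one_iff.1 hl
  have hr : r < fr := hf r (by simp)
  refine ⟨.seq (copy r (fr + 1) (fr + 2)) (.seq rewind (.seq (.act (.mv .right))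
    (.seq (rep (fr + 1) (fr + 2) (.act (.mv .right))) (.seq (clear fr)
      (.ite (.inp ψ) (push fr false) skip))))), fun a x σ S ho he hS => ?_⟩
  obtain ⟨w, i⟩ := a
  have hx : w.x = x := ho.1
  have hv : val (σ.reg r) = i := by simpa [Enc.enc] using he
  have hS' : i + 2 < 2 ^ S := by simp [bnd] at hS; omega
  have hS0 : 0 < S := by
    rcases Nat.eq_zero_or_pos S with h | h
    · rw [h] at hS'; omega
    · exact h
  have e1 := ex_copy (x := x) (S := S) (r := r) (s := fr + 1) (t := fr + 2)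
    (by omega) (by omega) (by omega) σ (len_le (by omega))
  obtain ⟨σ3, e3, v3, f3⟩ := ex_rep (x := x) (S := S) (c := fr + 1) (t := fr + 2) (by omega)
    (.act (.mv .right)) i (by omega)
    (fun j τ => τ.pos = min (j + 1) (x.length + 1) ∧ ∀ r < fr, τ.reg r = σ.reg r)
    (fun j τ l h => ⟨h.1, fun r hr => by
      simp only [St.set_reg, if_neg (show r ≠ fr + 1 by omega), if_neg (show r ≠ fr + 2 by omega)]
      exact h.2 r hr⟩)
    (fun j _ τ h => ⟨_, Exec.act (.mv .right) τ trivial, ⟨by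
      simp only [Act.run, Move.onInput, h.1]; omega, h.2⟩, rfl⟩)
    i le_rfl ((Act.mv .right).run x.length ⟨((σ.set (fr + 2) []).set (fr + 1) (σ.reg r)).reg, 0⟩)
    (by simpa [Act.run] using hv) ⟨by simp [Act.run, Move.onInput], fun r hr => by
      simp only [Act.run, St.set_reg, if_neg (show r ≠ fr + 1 by omega),
        if_neg (show r ≠ fr + 2 by omega)]⟩
  have hs : (Cond.inp ψ).on x (σ3.set fr []) = ψ (inSym x (i + 1)) := by
    simp only [Cond.on, Cond.ev, St.set_pos, v3, inSym_min]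
  by_cases h : ψ (inSym x (i + 1)) = true
  · refine ⟨_, e1.seq ((ex_rewind _).seq ((Exec.act (.mv .right) _ trivial).seq (e3.seq
      ((ex_clear fr _).seq (Exec.iteT (hs.trans h) (ex_push fr false _ (by simpa using hS0))))))),
      by simp [hx, h, val], fun r hr => ?_⟩
    simp only [St.set_reg, if_neg (show r ≠ fr by omega), f3 r hr]
  · refine ⟨_, e1.seq ((ex_rewind _).seq ((Exec.act (.mv .right) _ trivial).seq (e3.seq
      ((ex_clear fr _).seq (Exec.iteF (hs.trans (by simpa using h)) (ex_skip _)))))),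
      by simp [hx, h, val], fun r hr => ?_⟩
    simp only [St.set_reg, if_neg (show r ≠ fr by omega), f3 r hr]

end Vale.Agent.P312
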