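import Vale.Agent.P312.Cross

/-! The simulation: parameters, soundness, completeness and the space bound. -/

namespace Vale.Agent.P312

open scoped Classical

variable {A : Type}

def primeT (q : ℕ) : ℕ := itr (q - 2) 1 (fun i acc => if q % (i + 2) = 0 then 0 else acc)

theorem primeT_ne {q : ℕ} : primeT q ≠ 0 ↔ ∀ i < q - 2, ¬ (i + 2) ∣ q := by
  unfold primeT
  induction q - 2 with
  | zero => simp
  | succ n ih =>
    rw [itr_succ, Nat.forall_lt_succ_right, ← ih, Nat.dvd_iff_mod_eq_zero]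
    split_ifs with h <;> simp [h]

theorem primeT_iff {q : ℕ} (h : 2 ≤ q) : primeT q ≠ 0 ↔ q.Prime := by
  rw [primeT_ne, Nat.prime_def_lt']
  constructor
  · intro h1
    refine ⟨h, fun m h2 h3 => ?_⟩
    have := h1 (m - 2) (by omega)
    rwa [show m - 2 + 2 = m by omega] at this
  · intro h1 i hi
    exact h1.2 _ (by omega) (by omega)

@[fun_prop] theorem LS.primeT {α : Type} [Enc A α] {q : α → ℕ} (hq : LS A q) :
    LS A (fun a => primeT (q a)) :=
  LS.itrN (b := fun _ => 0) (by fun_prop) (by fun_prop) (by fun_prop) (by fun_prop)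
    (fun _ _ _ _ => by split_ifs <;> omega)

theorem shr_eq_zero {x i : ℕ} : shr 2 x i = 0 ↔ x < 2 ^ i := by
  rw [shr, Nat.div_eq_zero_iff]; simp

variable (M : OneTape A)

def Cnd (a l q r Z : ℕ) : Prop :=
  r < a * a ∧ shr 2 (nq M * (2 * (a * a * a) + 1) * (a * a)) l = 0 ∧ shr 2 (ng M) l = 0 ∧
    primeT q ≠ 0 ∧ (2 * (a * a * a) + 1) * ((2 * (a * a) + 1) * l + (2 * (a * a) + 1) * l) +
      (2 * (a * a) + 1) * l + 1 < q ∧ shr 2 q (8 * l) = 0 ∧ shr 2 Z (100 * (a * a * (l * l))) ≠ 0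

noncomputable def FF (x : List A) (a l q r Z : ℕ) : ℕ :=
  if Cnd M a l q r Z then
    hlt M (resN q ((2 * (a * a) + 1) * l) (2 * (a * a * a) + 1) (pwm Z 2 ((2 * (a * a) + 1) * l))
      (pwm Z (nq M * (2 * (a * a * a) + 1) * (a * a)) a) a (a * a) Z
      (errF M Z (a * a) (a * a * a * (a * a)) (nq M * (2 * (a * a * a) + 1) * (a * a))
        (pwm Z (ng M) (a * a)) a)
      (HF M Z (a * a) (a * a * a * (a * a)) (nq M * (2 * (a * a * a) + 1) * (a * a))
        (pwm Z (ng M) (a * a)) a)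
      (N0F M x Z (a * a) (a * a * a * (a * a) + r) (pwm Z (ng M) (a * a))) /
      pwm Z (ng M) (a * a) % nq M)
  else 0

noncomputable def F0 (p : Wd A × ℕ) : ℕ :=
  FF M p.1.x p.2.unpair.1.unpair.1.unpair.1 p.2.unpair.1.unpair.1.unpair.2
    p.2.unpair.1.unpair.2.unpair.1 p.2.unpair.1.unpair.2.unpair.2 p.2.unpair.2

theorem LS.FF {α : Type} [Enc A α] {x : α → Wd A} {a l q r Z : α → ℕ} (hx : LS A x) (ha : LS A a)
    (hl : LS A l) (hq : LS A q) (hr : LS A r) (hZ : LS A Z) :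
    LS A (fun p => FF M (x p).x (a p) (l p) (q p) (r p) (Z p)) := by
  refine LS.ite (by unfold Cnd; fun_prop) (LS.hlt M (LS.mod (LS.div ?_ (by fun_prop))
    (by fun_prop))) (by fun_prop)
  exact LS.resN hq (by fun_prop) (by fun_prop) (by fun_prop) (by fun_prop) ha (by fun_prop) hZ
    (by fun_prop) (by fun_prop) (LS.N0F M (hx.comp ls_fst) (by fun_prop) (by fun_prop)
      (by fun_prop) (by fun_prop) (by fun_prop))

theorem ls_F0 : LS A (F0 M) :=
  LS.FF M ls_fst (by fun_prop) (by fun_prop) (by fun_prop) (by fun_prop) (by fun_prop)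

variable {M}

theorem pw2 {y e : ℕ} (n : ℕ) (h : y ≤ 2 ^ e) : y ^ n ≤ 2 ^ (e * n) := by
  rw [pow_mul]; exact Nat.pow_le_pow_left h n

theorem bounds {a l q Z K g k d : ℕ} (ha : 0 < a) (hl : 0 < l) (hK : K < 2 ^ l) (hg : g < 2 ^ l)
    (hk : k ≤ K) (hq : q < 2 ^ (8 * l)) (hd : d = (2 * (a * a) + 1) * l)
    (hZ : 2 ^ (100 * (a * a * (l * l))) ≤ Z) :
    g ^ (a * a) < Z ∧ K ^ a < Z ∧ 2 ^ d < Z ∧ q ^ (3 * d + 1) < Z ∧ K ^ (a * a + 1) < Z ∧
      (∀ v < a * a, (4 * q) ^ (v + 1) * (7 * K ^ a * k) ^ (v / a + 1) < Z) ∧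
      K ^ (a * a + 1) * g ^ (a * a) ≤ 2 ^ d := by
  have haa : 0 < a * a := by positivity
  have hal : a * a * l ≤ a * a * (l * l) := Nat.mul_le_mul_left _ (Nat.le_mul_self l)
  have hal0 : 0 < a * a * l := by positivity
  have hll : l ≤ a * a * l := Nat.le_mul_of_pos_left _ haa
  have big : ∀ y e, y ≤ 2 ^ e → e < 100 * (a * a * (l * l)) → y < Z := fun y e h1 h2 =>
    lt_of_lt_of_le (lt_of_le_of_lt h1 (Nat.pow_lt_pow_right (by norm_num) h2)) hZ
  have hd' : d = 2 * (a * a * l) + l := by rw [hd]; ring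
  have hla : l * a ≤ a * a * l := by
    rw [mul_comm l a]; exact Nat.mul_le_mul_right _ (Nat.le_mul_self a)
  have e1 : l * (a * a) = a * a * l := by ring
  have e2 : l * (a * a + 1) = a * a * l + l := by ring
  refine ⟨big _ _ (pw2 _ hg.le) (by omega), big _ _ (pw2 _ hK.le) (by omega),
    big _ _ le_rfl (by omega), big _ _ (pw2 _ hq.le) ?_, big _ _ (pw2 _ hK.le) (by omega),
    fun v hv => big _ (10 * l * (v + 1) + 5 * (l * a) * (v / a + 1)) ?_ ?_, ?_⟩
  · have : 3 * d + 1 ≤ 10 * (a * a * l) := by omega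
    calc 8 * l * (3 * d + 1) ≤ 8 * l * (10 * (a * a * l)) := Nat.mul_le_mul_left _ this
      _ = 80 * (a * a * (l * l)) := by ring
      _ < _ := by omega
  · rw [pow_add 2]
    refine Nat.mul_le_mul (pw2 _ ?_) (pw2 _ ?_)
    · calc 4 * q ≤ 2 ^ (2 * l) * 2 ^ (8 * l) := Nat.mul_le_mul (le_trans (by norm_num)
          (Nat.pow_le_pow_right (by norm_num) (show 2 ≤ 2 * l by omega))) hq.le
        _ = _ := by rw [← pow_add]; congr 1; ring
    · have h1 : 0 < l * a := by positivity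
      have h2 : l ≤ l * a := Nat.le_mul_of_pos_right _ ha
      calc 7 * K ^ a * k ≤ 2 ^ 3 * 2 ^ (l * a) * 2 ^ l :=
          Nat.mul_le_mul (Nat.mul_le_mul (by norm_num) (pw2 _ hK.le)) (by omega)
        _ = 2 ^ (3 + l * a + l) := by rw [pow_add, pow_add]
        _ ≤ _ := Nat.pow_le_pow_right (by norm_num) (by omega)
  · have hi : v / a < a := (Nat.div_lt_iff_lt_mul ha).2 hv
    have h1 : 10 * l * (v + 1) ≤ 10 * l * (a * a) := Nat.mul_le_mul_left _ hv
    have h2 : 5 * (l * a) * (v / a + 1) ≤ 5 * (l * a) * a := Nat.mul_le_mul_left _ hi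
    have h3 : 10 * l * (a * a) = 10 * (a * a * l) := by ring
    have h4 : 5 * (l * a) * a = 5 * (a * a * l) := by ring
    omega
  · calc _ ≤ 2 ^ (l * (a * a + 1)) * 2 ^ (l * (a * a)) :=
        Nat.mul_le_mul (pw2 _ hK.le) (pw2 _ hg.le)
      _ = _ := by rw [← pow_add]; congr 1; omega

theorem FF_eq (x : List A) {a l q r Z : ℕ} (h : Cnd M a l q r Z) :
    FF M x a l q r Z = ocode (M.out (cfg M x (a * a * a * (a * a) + r) (a * a)
      (a * a * a * (a * a)) (a * a * a)).state) := by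
  rw [FF, if_pos h]
  obtain ⟨hr, hK, hg, hp, hq, hq8, hZ⟩ := h
  rw [shr_eq_zero] at hK hg hq8
  rw [Ne, shr_eq_zero, not_lt] at hZ
  have hprime : q.Prime := (primeT_iff (by omega)).1 hp
  have : Fact q.Prime := ⟨hprime⟩
  have ha : 0 < a := by
    rcases Nat.eq_zero_or_pos a with h | h
    · simp [h] at hr
    · exact h
  have hnq := nq_pos M
  have hl : 0 < l := by
    rcases Nat.eq_zero_or_pos l with h | h
    · rw [h] at hg; have := ng_pos M; omega
    · exact h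
  have haa : 0 < a * a := by positivity
  have hkK : 2 * (a * a * a) + 1 ≤ nq M * (2 * (a * a * a) + 1) * (a * a) := by
    calc _ = 1 * (2 * (a * a * a) + 1) * 1 := by ring
      _ ≤ _ := Nat.mul_le_mul (Nat.mul_le_mul_right _ hnq) haa
  obtain ⟨b1, b2, b3, b4, b5, b6, b7⟩ := bounds ha hl hK hg hkK hq8 rfl hZ
  have hd0 : 0 < (2 * (a * a) + 1) * l := by positivity
  have hkq : 2 * (a * a * a) + 1 < q :=
    lt_of_le_of_lt (le_trans (Nat.le_mul_of_pos_right _ (by omega : 0 < (2 * (a * a) + 1) * l +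
      (2 * (a * a) + 1) * l)) (by omega)) hq
  simp only [pwm, md_of_lt b1, md_of_lt b2, md_of_lt b3]
  have sys : Sys q ((2 * (a * a) + 1) * l) (2 * (a * a * a) + 1)
      ((nq M * (2 * (a * a * a) + 1) * (a * a)) ^ a) a (a * a)
      (LN q (2 * (a * a * a) + 1) ((nq M * (2 * (a * a * a) + 1) * (a * a)) ^ a) a Z)
      (errF M Z (a * a) (a * a * a * (a * a)) (nq M * (2 * (a * a * a) + 1) * (a * a))
        (ng M ^ (a * a)) a)
      (HF M Z (a * a) (a * a * a * (a * a)) (nq M * (2 * (a * a * a) + 1) * (a * a))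
        (ng M ^ (a * a)) a)
      (N0F M x Z (a * a) (a * a * a * (a * a) + r) (ng M ^ (a * a)))
      (NT M x (a * a * a * (a * a) + r) (a * a) (a * a * a * (a * a))
        (nq M * (2 * (a * a * a) + 1) * (a * a)) a) :=
    { hd := hd0
      hk := hkq
      hdeg := by omega
      L0 := rfl
      LS := fun v hv => by
        rw [LN_succ, md_of_lt]
        exact (LN_le q _ _ Z ha (by omega) (by positivity) hprime.pos v).trans_lt (b6 v hv)
      lt := fun v hv j _ => (NT_lt hr b1.le hv j).trans_le b7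
      zero := fun j _ => N0F_eq x b1.le j
      le := fun _ _ _ _ _ => errF_le _ _ _ _ _ _ _ _ _ _ _
      step := fun v hv j _ => NT_step hr b1.le b5.le hv j }
  rw [sys.resN (by omega) b4.le, NT_div, Nat.mul_div_cancel _ ha, Nat.mul_mod_left]
  simp only [zero_mul, ofd, mul_zero, add_zero, ctl_mod, hlt_code]
  rw [← mul_assoc a a a]

theorem F0_sound {x : List A} {t u : ℕ} {b : Bool}
    (h : M.out (M.step^[t] (M.init x)).state = some b) (hu : F0 M (⟨x⟩, u) ≠ 0) :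
    F0 M (⟨x⟩, u) = ocode (some b) := by
  unfold F0 at hu ⊢
  generalize u.unpair.1.unpair.1.unpair.1 = a at *
  generalize u.unpair.1.unpair.1.unpair.2 = l at *
  generalize u.unpair.1.unpair.2.unpair.1 = q at *
  generalize u.unpair.1.unpair.2.unpair.2 = r at *
  generalize u.unpair.2 = Z at *
  by_cases hc : Cnd M a l q r Z
  · rw [FF_eq _ hc] at hu ⊢
    obtain ⟨τ, h1⟩ := cfg_run (M := M) x (a * a * a * (a * a) + r) (a * a) (a * a * a * (a * a))
      (a * a * a)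
    dsimp only at hu ⊢
    rw [h1] at hu ⊢
    rcases le_total t τ with h2 | h2
    · rw [halt_stay (by rw [h]; rfl) h2, h]
    · rw [← h, halt_stay (not_not.1 (mt ocode_eq_zero.2 hu)) h2]
  · exact absurd (if_neg hc) hu

theorem F0_complete {x : List A} {t a l : ℕ} {b : Bool}
    (h : M.out (M.step^[t] (M.init x)).state = some b) (ht : t < a * a * a * (a * a))
    (hK : nq M * (2 * (a * a * a) + 1) * (a * a) < 2 ^ l) (hg : ng M < 2 ^ l) :
    ∃ u < (2 ^ (100 * (a * a * (l * l))) + 1) ^ 8, F0 M (⟨x⟩, u) ≠ 0 := by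
  obtain ⟨r, hr, hc⟩ := exists_shift M x ht
  obtain ⟨q, hq, h1, h2⟩ := Nat.exists_prime_lt_and_le_two_mul ((2 * (a * a * a) + 1) *
    ((2 * (a * a) + 1) * l + (2 * (a * a) + 1) * l) + (2 * (a * a) + 1) * l + 1) (by omega)
  have ha : 0 < a := by nlinarith
  have hnq := nq_pos M
  have haa : 0 < a * a := by positivity
  have hl : 0 < l := by
    rcases Nat.eq_zero_or_pos l with h | h
    · rw [h] at hg; have := ng_pos M; omega
    · exact h
  have hlX : l < 2 ^ l := Nat.lt_two_pow_self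
  have hk : 2 * (a * a * a) + 1 ≤ 2 ^ l := by
    calc _ = 1 * (2 * (a * a * a) + 1) * 1 := by ring
      _ ≤ nq M * (2 * (a * a * a) + 1) * (a * a) :=
        Nat.mul_le_mul (Nat.mul_le_mul_right _ hnq) haa
      _ ≤ _ := hK.le
  have hw : 2 * (a * a) + 1 ≤ 2 ^ l := le_trans (by nlinarith) hk
  have hq8 : q < 2 ^ (8 * l) := by
    have hX : 2 ≤ 2 ^ l := by omega
    rw [mul_comm 8 l, pow_mul]
    generalize 2 ^ l = X at *
    have d1 : (2 * (a * a) + 1) * l ≤ X * X := Nat.mul_le_mul hw hlX.le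
    generalize (2 * (a * a) + 1) * l = d at *
    have d2 : (2 * (a * a * a) + 1) * (d + d) ≤ X * (X * X + X * X) :=
      Nat.mul_le_mul hk (by omega)
    have d3 : 2 ^ 5 ≤ X ^ 5 := Nat.pow_le_pow_left hX 5
    have d4 : X * X ≤ X * (X * X) := by nlinarith
    have d5 : 1 ≤ X * X := by nlinarith
    have d6 : X ^ 8 = X ^ 5 * (X * (X * X)) := by ring
    have d7 : 2 ^ 5 * (X * (X * X)) ≤ X ^ 5 * (X * (X * X)) := Nat.mul_le_mul_right _ d3
    nlinarith
  have hE : 8 * l ≤ 100 * (a * a * (l * l)) := by nlinarith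
  set Z := 2 ^ (100 * (a * a * (l * l))) with hZ
  have hZ1 : 2 ^ (8 * l) ≤ Z := Nat.pow_le_pow_right (by norm_num) hE
  have hZ2 : 2 ^ l ≤ Z := le_trans (Nat.pow_le_pow_right (by norm_num) (by omega)) hZ1
  have hcnd : Cnd M a l q r Z := ⟨hr, shr_eq_zero.2 hK, shr_eq_zero.2 hg,
    (primeT_iff hq.two_le).2 hq, h1, shr_eq_zero.2 hq8, by rw [Ne, shr_eq_zero]; omega⟩
  refine ⟨Nat.pair (Nat.pair (Nat.pair a l) (Nat.pair q r)) Z, ?_, ?_⟩
  · have p : ∀ y z B, y < B → z < B → Nat.pair y z < B ^ 2 := fun y z B h1 h2 =>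
      (Nat.pair_lt_max_add_one_sq y z).trans_le (Nat.pow_le_pow_left (by omega) 2)
    have ha2 : a ≤ a * a := by nlinarith
    have h3 := p _ _ _ (p a l (Z + 1) (by omega) (by omega)) (p q r (Z + 1) (by omega) (by omega))
    have h4 : Z < ((Z + 1) ^ 2) ^ 2 := by
      rw [← pow_mul]; exact lt_of_lt_of_le (Nat.lt_succ_self Z) (Nat.le_self_pow (by norm_num) _)
    have h5 := p _ _ _ h3 h4
    rwa [← pow_mul, ← pow_mul] at h5
  · simp only [F0, Nat.unpair_pair]
    rw [FF_eq _ hcnd, cfg_halt (t := t) (by rw [h]; rfl) ht.le hc, h]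
    cases b <;> simp [ocode]

theorem outer {f : Wd A × ℕ → ℕ} (hf : LS A f) : ∃ (P : Prog A) (C : ℕ), ∀ (x : List A) (u0 S : ℕ),
    f (⟨x⟩, u0) ≠ 0 → (x.length + u0 + 2) ^ C < 2 ^ S →
    ∃ σ u, Exec x S P St.init σ ∧ val (σ.reg 1) = f (⟨x⟩, u) ∧ f (⟨x⟩, u) ≠ 0 := by
  obtain ⟨C, _, h2⟩ := ls_nat.1 hf
  obtain ⟨p, hp⟩ := (h2.mono (Nat.le_succ C)) [0] 1 rfl (by simp)
  refine ⟨.seq p (.loop (.top 1 Option.isNone) (.seq (succP 0 2) p)), C + 1,
    fun x u0 S h0 hS => ?_⟩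
  have hb : ∀ u ≤ u0, bnd x ((⟨x⟩ : Wd A), u) ^ (C + 1) < 2 ^ S := fun u hu =>
    lt_of_le_of_lt (Nat.pow_le_pow_left (by simp [bnd]; omega) _) hS
  have key : ∀ n u σ, u + n = u0 → val (σ.reg 0) = u → val (σ.reg 1) = f (⟨x⟩, u) →
      ∃ σ' u, Exec x S (.loop (.top 1 Option.isNone) (.seq (succP 0 2) p)) σ σ' ∧
        val (σ'.reg 1) = f (⟨x⟩, u) ∧ f (⟨x⟩, u) ≠ 0 := by
    intro n
    have fin : ∀ u σ, val (σ.reg 1) = f (⟨x⟩, u) → f (⟨x⟩, u) ≠ 0 →
        ∃ σ' u, Exec x S (.loop (.top 1 Option.isNone) (.seq (succP 0 2) p)) σ σ' ∧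
        val (σ'.reg 1) = f (⟨x⟩, u) ∧ f (⟨x⟩, u) ≠ 0 := by
      intro u σ h1 h2
      refine ⟨σ, u, Exec.loopF ?_, h1, h2⟩
      cases h : σ.reg 1 with
      | nil => rw [h] at h1; exact absurd h1.symm h2
      | cons b l => simp [Cond.on, Cond.ev, h]
    induction n with
    | zero => intro u σ h1 _ h3; exact fin u σ h3 (by rwa [← h1] at h0)
    | succ n ih =>
      intro u σ h1 h2 h3
      by_cases h4 : f (⟨x⟩, u) = 0
      · have h5 : u0 + 1 < 2 ^ S :=
          lt_of_le_of_lt (le_trans (by omega) (Nat.le_self_pow (Nat.succ_ne_zero C) _)) hS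
        obtain ⟨l, hl, e1⟩ := ex_succ (x := x) (S := S) (r := 0) (t := 2) (by omega) σ (by omega)
        obtain ⟨σ1, e2, v1, f1⟩ := hp (⟨x⟩, u + 1) x ((σ.set 2 []).set 0 l) S ⟨rfl, trivial⟩
          (by simp [Enc.enc, hl, h2]) (hb _ (by omega))
        obtain ⟨σ2, u', e3, v3⟩ := ih (u + 1) σ1 (by omega) (by rw [f1 0 (by omega)]; simp [hl, h2]) v1
        refine ⟨σ2, u', Exec.loopT ?_ (e1.seq e2) e3, v3⟩
        simp [Cond.on, Cond.ev, val_eq_zero.1 (h3.trans h4)]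
      · exact fin u σ h3 h4
  obtain ⟨σ1, e1, v1, f1⟩ := hp (⟨x⟩, 0) x St.init S ⟨rfl, trivial⟩ rfl (hb _ (by omega))
  obtain ⟨σ2, u, e2, v2⟩ := key u0 0 σ1 (by omega) (by rw [f1 0 (by omega)]; rfl) v1
  exact ⟨σ2, u, e1.seq e2, v2⟩

theorem head_of_val {l : List Bool} {b : Bool} (h : val l = ocode (some b)) : l.head? = some b := by
  cases l with
  | nil => cases b <;> simp [val, ocode] at h
  | cons c l => cases b <;> cases c <;> simp [val, ocode] at h ⊢

/-- The simulation with explicit parameters. -/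
theorem simulate (M : OneTape A) : ∃ (M' : MultiTape A) (C : ℕ), ∀ (x : List A) (t a l : ℕ) (b : Bool),
    M.out (M.step^[t] (M.init x)).state = some b → x.length ≤ t → t < a * a * a * (a * a) →
    nq M * (2 * (a * a * a) + 1) * (a * a) < 2 ^ l → ng M < 2 ^ l →
    (∃ m, M'.out ((M'.step x)^[m] M'.init).state = some b) ∧
      ∀ m i, 0 ≤ ((M'.step x)^[m] M'.init).heads i ∧
        ((M'.step x)^[m] M'.init).heads i ≤ (C * (a * a * (l * l) + 1) : ℕ) := by
  obtain ⟨P, C, hP⟩ := outer (ls_F0 M)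
  obtain ⟨M', hM⟩ := compile P
  refine ⟨M', 1000 * C + 1, fun x t a l b h hx ht hK hg => ?_⟩
  obtain ⟨u0, h1, h2⟩ := F0_complete h ht hK hg
  have hS : (x.length + u0 + 2) ^ C < 2 ^ ((1000 * C + 1) * (a * a * (l * l) + 1)) := by
    have hnq := nq_pos M
    have ha : 0 < a := by
      rcases Nat.eq_zero_or_pos a with h | h
      · simp [h] at ht
      · exact h
    have hl : 0 < l := by
      rcases Nat.eq_zero_or_pos l with h | h
      · rw [h] at hg; have := ng_pos M; omega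
      · exact h
    have h3 : t < 2 ^ l := by
      refine lt_of_lt_of_le ht (le_trans ?_ hK.le)
      refine Nat.mul_le_mul_right _ ?_
      nlinarith
    have haa : 0 < a * a := by positivity
    have h4 : 2 ^ l ≤ 2 ^ (100 * (a * a * (l * l))) :=
      Nat.pow_le_pow_right (by norm_num) (by nlinarith)
    have h5 : 2 ^ (100 * (a * a * (l * l))) + 1 ≤ 2 ^ (100 * (a * a * (l * l)) + 1) := by
      rw [pow_succ]; have := Nat.one_le_two_pow (n := 100 * (a * a * (l * l))); omega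
    generalize a * a * (l * l) = E at *
    have h6 := Nat.pow_le_pow_left h5 8
    rw [← pow_mul] at h6
    have h7 : 2 ^ (100 * E) ≤ 2 ^ ((100 * E + 1) * 8) := Nat.pow_le_pow_right (by norm_num) (by omega)
    have h8 : x.length + u0 + 2 ≤ 2 ^ ((100 * E + 1) * 8 + 1) := by
      rw [pow_succ]; omega
    calc _ ≤ (2 ^ ((100 * E + 1) * 8 + 1)) ^ C := Nat.pow_le_pow_left h8 C
      _ = 2 ^ (((100 * E + 1) * 8 + 1) * C) := by rw [← pow_mul]
      _ < _ := Nat.pow_lt_pow_right (by norm_num) (by nlinarith)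
  obtain ⟨σ, u, e, v, hu⟩ := hP x u0 _ h2 hS
  exact hM x _ σ b e (head_of_val (v.trans (F0_sound h hu)))

end Vale.Agent.P312
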