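import Vale.Agent.P312.Cat

/-! The catalytic program on numbers, and its computability in linear space. -/

namespace Vale.Agent.P312

open Finset

def eqvN (q d ρ m x : ℕ) : ℕ :=
  pmod q d (fun c => if dig 2 x c = 1 then dig q m (ρ * d + c) else 1 + (q - 1) * dig q m (ρ * d + c))

def ML1N (q d W ρ m : ℕ) (f : ℕ → ℕ) : ℕ := smod q W (fun x => eqvN q d ρ m x * f x)

def ML2N (q d W ρ ρ' m : ℕ) (f : ℕ → ℕ → ℕ) : ℕ :=
  smod q W (fun x => eqvN q d ρ m x * ML1N q d W ρ' m (f x))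

def dlN (q k e : ℕ) : ℕ := pmod q k (fun c => 1 + (q - 1) * (e * pwm q (c + 1) (q - 2)))

def nd (q d k W : ℕ) (err : ℕ → ℕ → ℕ → ℕ → ℕ → ℕ) (H : ℕ → ℕ → ℕ → ℕ → ℕ) (N0 : ℕ → ℕ)
    (st : DS) (m i : ℕ) : ℕ :=
  if st.1 = 1 then
    (if i / d = st.2.2.2.1 then dig q m i else pwm q st.2.2.2.2.1 st.2.2.2.2.2 * dig q m i)
  else if st.1 = 2 then
    (if i = 3 * d then dig q m i + st.2.2.2.2.1 * ML2N q d W ((st.2.2.2.1 + 1) % 3)
      ((st.2.2.2.1 + 2) % 3) m (err st.2.1 st.2.2.1 st.2.2.2.2.2) else dig q m i)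
  else if st.1 = 3 then
    (if i / d = st.2.2.2.1 then dig q m i + (q - 1) * st.2.2.2.2.1 * dlN q k (dig q m (3 * d)) *
      ML1N q d W ((st.2.2.2.1 + 1) % 3) m
        (fun x => dig 2 (H st.2.1 st.2.2.1 st.2.2.2.2.2 x) (i % d)) else dig q m i)
  else if st.1 = 4 then
    (if i / d = st.2.2.2.1 then dig q m i + st.2.2.2.2.1 * dig 2 (N0 st.2.2.1) (i % d)
      else dig q m i)
  else dig q m i

def exN (q d k W Z : ℕ) (err : ℕ → ℕ → ℕ → ℕ → ℕ → ℕ) (H : ℕ → ℕ → ℕ → ℕ → ℕ) (N0 : ℕ → ℕ)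
    (st : DS) (m : ℕ) : ℕ :=
  md Z (ofd q (fun i => md q (nd q d k W err H N0 st m i)) (3 * d + 1))

def LN2 (q k G a Z v : ℕ) : ℕ × ℕ :=
  itr v (1, 1) (fun v' p => (md Z ((q - 1) * lP k G p.1 (if v' % a = 0 then p.1 else p.2)),
    if v' % a = 0 then p.1 else p.2))

def LN (q k G a Z v : ℕ) : ℕ := (LN2 q k G a Z v).1

def dec (q k G a Z n : ℕ) (st : DS) : DS := itr n st (fun _ st => dstep q k G a (LN q k G a Z) st)

def memN (q d k W G a V Z : ℕ) (err : ℕ → ℕ → ℕ → ℕ → ℕ → ℕ) (H : ℕ → ℕ → ℕ → ℕ → ℕ)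
    (N0 : ℕ → ℕ) : ℕ :=
  itr (LN q k G a Z V) 0
    (fun i m => exN q d k W Z err H N0 (dec q k G a Z (V + 1) (0, V, 0, 0, 1, i)) m)

def resN (q d k W G a V Z : ℕ) (err : ℕ → ℕ → ℕ → ℕ → ℕ → ℕ) (H : ℕ → ℕ → ℕ → ℕ → ℕ)
    (N0 : ℕ → ℕ) : ℕ :=
  md Z (ofd 2 (fun c => dig q (memN q d k W G a V Z err H N0) c) d)

section sim
variable {q d : ℕ} [hq : Fact q.Prime] {m : ℕ} {μ : ℕ → ZMod q}
  (h : ∀ i < 3 * d + 1, (dig q m i : ZMod q) = μ i)
include h

theorem cast_eqvN {ρ : ℕ} (hρ : ρ < 3) (x : ℕ) : (eqvN q d ρ m x : ZMod q) = eqv d (rd d ρ μ) x := by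
  rw [eqvN, cast_pmod hq.out.pos, eqv]
  refine prod_congr rfl fun c hc => ?_
  have hc' := mem_range.1 hc
  have := h (ρ * d + c) (by nlinarith)
  simp only [rd, cut, if_pos hc']
  split_ifs
  · exact this
  · rw [Nat.cast_add, Nat.cast_mul, cast_pred, this]; simp; ring

theorem cast_ML1N {ρ : ℕ} (hρ : ρ < 3) (f : ℕ → ℕ) :
    (ML1N q d (2 ^ d) ρ m f : ZMod q) = ML1 d f (rd d ρ μ) := by
  rw [ML1N, cast_smod hq.out.pos, ML1]
  exact sum_congr rfl fun x _ => by rw [Nat.cast_mul, cast_eqvN h hρ]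

theorem cast_ML2N {ρ ρ' : ℕ} (hρ : ρ < 3) (hρ' : ρ' < 3) (f : ℕ → ℕ → ℕ) :
    (ML2N q d (2 ^ d) ρ ρ' m f : ZMod q) = ML2 d f (rd d ρ μ) (rd d ρ' μ) := by
  rw [ML2N, cast_smod hq.out.pos, ML2]
  exact sum_congr rfl fun x _ => by rw [Nat.cast_mul, cast_eqvN h hρ, cast_ML1N h hρ']

omit h in
theorem cast_dlN (k e : ℕ) : (dlN q k e : ZMod q) = dl q k e := by
  rw [dlN, cast_pmod hq.out.pos, dl]
  refine prod_congr rfl fun c _ => ?_
  rw [Nat.cast_add, Nat.cast_mul, Nat.cast_mul, cast_pred, cast_pwm hq.out.pos]; simp; ring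

theorem cast_nd (hd : 0 < d) (k : ℕ) (err H N0) (st : DS) {i : ℕ} (hi : i < 3 * d + 1) :
    (nd q d k (2 ^ d) err H N0 st m i : ZMod q) = exM q d k err H N0 st μ i := by
  have h1 := h i hi
  have h3 := h (3 * d) (by omega)
  have m1 : (st.2.2.2.1 + 1) % 3 < 3 := Nat.mod_lt _ (by norm_num)
  have m2 : (st.2.2.2.1 + 2) % 3 < 3 := Nat.mod_lt _ (by norm_num)
  unfold nd exM
  split_ifs with a1 a2 a3 a4 a5 a6 a7 a8 <;>
    simp only [scl, addE, addR, *, if_true, if_false, Nat.cast_add, Nat.cast_mul,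
      cast_pwm hq.out.pos, cast_ML2N h m1 m2, cast_ML1N h m1, cast_dlN, cast_pred,
      Pi.smul_apply, smul_eq_mul, bits, cut, Nat.mod_lt _ hd]
  ring

theorem sim_exN (hd : 0 < d) {Z : ℕ} (hZ : q ^ (3 * d + 1) ≤ Z) (k : ℕ) (err H N0) (st : DS) :
    ∀ i < 3 * d + 1, (dig q (exN q d k (2 ^ d) Z err H N0 st m) i : ZMod q) =
      exM q d k err H N0 st μ i := by
  intro i hi
  have hp := hq.out.pos
  have hlt : ∀ i < 3 * d + 1, md q (nd q d k (2 ^ d) err H N0 st m i) < q := fun i _ => by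
    rw [md_eq hp]; exact Nat.mod_lt _ hp
  rw [exN, md_of_lt ((ofd_lt hlt).trans_le hZ), dig_ofd hlt hi, cast_md hp, cast_nd h hd k _ _ _ _ hi]

end sim

theorem itr_iterate {β : Type} (n : ℕ) (z : β) (f : β → β) : itr n z (fun _ => f) = f^[n] z := by
  induction n with
  | zero => rfl
  | succ n ih => rw [itr_succ, ih, Function.iterate_succ_apply']

theorem Sys.resN {q d k G a V Z err H N0 N} [hq : Fact q.Prime]
    (h : Sys q d k G a V (LN q k G a Z) err H N0 N) (hk : 0 < k) (hZ : q ^ (3 * d + 1) ≤ Z) :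
    resN q d k (2 ^ d) G a V Z err H N0 = N V 0 := by
  have h1 := h.run V le_rfl (V + 1) (by omega) 0 hk 0 (by omega) 1 0
  have h2 : ∀ n, ∀ i < 3 * d + 1, (dig q (itr n 0 (fun i m => exN q d k (2 ^ d) Z err H N0
      (dec q k G a Z (V + 1) (0, V, 0, 0, 1, i)) m)) i : ZMod q) =
      P312.run (fun st => exM q d k err H N0 ((dstep q k G a (LN q k G a Z))^[V + 1] st))
        (fun i => (0, V, 0, 0, 1, i)) n 0 i := by
    intro n
    induction n with
    | zero => intro i _; simp [P312.run, dig, shr]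
    | succ n ih =>
      rw [itr_succ, dec, itr_iterate]
      exact sim_exN ih h.hd hZ k err H N0 _
  have h2q := hq.out.two_le
  have h3 : ∀ c < d, dig q (memN q d k (2 ^ d) G a V Z err H N0) c = dig 2 (N V 0) c := by
    intro c hc
    have := h2 (LN q k G a Z V) c (by omega)
    rw [h1] at this
    simp only [addR, Nat.div_eq_of_lt hc, if_true, Nat.mod_eq_of_lt hc, Pi.zero_apply, zero_add,
      Nat.cast_one, one_smul, bits, cut, hc] at this
    have h4 := congrArg ZMod.val this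
    rwa [ZMod.val_natCast_of_lt (dig_lt hq.out.pos _ _),
      ZMod.val_natCast_of_lt ((dig_lt (by norm_num) _ _).trans_le h2q)] at h4
  have h5 := h.lt V le_rfl 0 hk
  rw [P312.resN, ofd_congr h3, ofd_dig h5, md_of_lt]
  calc N V 0 < 2 ^ d := h5
    _ ≤ q ^ d := Nat.pow_le_pow_left h2q _
    _ ≤ q ^ (3 * d + 1) := Nat.pow_le_pow_right (by omega) (by omega)
    _ ≤ Z := hZ

theorem LN_succ (q k G Z a v : ℕ) :
    LN q k G a Z (v + 1) = md Z ((q - 1) * lP k G (LN q k G a Z v) (LN q k G a Z (v / a * a))) := by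
  have key : ∀ v, (if v % a = 0 then (LN2 q k G a Z v).1 else (LN2 q k G a Z v).2) =
      LN q k G a Z (v / a * a) := by
    intro v
    induction v with
    | zero => simp [LN]
    | succ v ih =>
      split_ifs with h
      · rw [Nat.div_mul_cancel (Nat.dvd_of_mod_eq_zero h)]; rfl
      · rw [Nat.succ_div, if_neg (fun h' => h (Nat.mod_eq_zero_of_dvd h')), add_zero, ← ih]; rfl
  rw [← key]; rfl

theorem md_le' (Z x : ℕ) : md Z x ≤ x := by
  unfold md; split_ifs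
  · omega
  · exact Nat.mod_le _ _

theorem LN_le (q k G Z : ℕ) {a : ℕ} (ha : 0 < a) (hk : 0 < k) (hG : 0 < G) (hq : 0 < q) (v : ℕ) :
    (q - 1) * lP k G (LN q k G a Z v) (LN q k G a Z (v / a * a)) ≤
      (4 * q) ^ (v + 1) * (7 * G * k) ^ (v / a + 1) := by
  have hU : 2 ≤ 7 * G * k := by nlinarith
  have step : ∀ v, LN q k G a Z v ≤ (4 * q) ^ v * (7 * G * k) ^ (v / a + 1) →
      LN q k G a Z (v / a * a) ≤ (4 * q) ^ v * (7 * G * k) ^ (v / a) →
      (q - 1) * lP k G (LN q k G a Z v) (LN q k G a Z (v / a * a)) ≤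
        (4 * q) ^ (v + 1) * (7 * G * k) ^ (v / a + 1) := by
    intro v h1 h2
    have hM : 1 ≤ (4 * q) ^ v * (7 * G * k) ^ (v / a) := Nat.one_le_iff_ne_zero.2 (by positivity)
    rw [pow_succ, ← mul_assoc] at h1
    have e : (4 * q) ^ (v + 1) * (7 * G * k) ^ (v / a + 1) =
        q * (4 * ((4 * q) ^ v * (7 * G * k) ^ (v / a) * (7 * G * k))) := by ring
    rw [e]
    generalize (4 * q) ^ v * (7 * G * k) ^ (v / a) = M at *
    generalize LN q k G a Z v = x at *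
    generalize LN q k G a Z (v / a * a) = y at *
    refine Nat.mul_le_mul (by omega) ?_
    unfold lP lG lE
    have h3 : k * (y + (1 + y)) ≤ k * (3 * M) := Nat.mul_le_mul_left _ (by omega)
    have h4 : 1 ≤ k * M := Nat.one_le_iff_ne_zero.2 (by positivity)
    have h5 : G * (k * (y + (1 + y)) + (1 + k * (y + (1 + y)))) ≤ G * (7 * (k * M)) :=
      Nat.mul_le_mul_left _ (by nlinarith)
    have h6 : 2 ≤ M * (7 * G * k) := by nlinarith
    nlinarith
  have main : ∀ v, LN q k G a Z v ≤ (4 * q) ^ v * (7 * G * k) ^ ((v + a - 1) / a) := by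
    intro v
    induction v using Nat.strong_induction_on with
    | _ v ih =>
    cases v with
    | zero => exact Nat.one_le_iff_ne_zero.2 (by positivity)
    | succ v =>
      rw [LN_succ, show v + 1 + a - 1 = v + a by omega, Nat.add_div_right _ ha]
      have hb : v / a * a ≤ v := Nat.div_mul_le_self _ _
      refine (md_le' _ _).trans (step v ((ih v (by omega)).trans ?_) ((ih _ (by omega)).trans ?_))
      · refine Nat.mul_le_mul_left _ (Nat.pow_le_pow_right (by omega) ?_)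
        rw [← Nat.add_div_right _ ha]; exact Nat.div_le_div_right (by omega)
      · refine Nat.mul_le_mul (Nat.pow_le_pow_right (by omega) hb) (le_of_eq ?_)
        rw [show v / a * a + a - 1 = (a - 1) + v / a * a by omega, Nat.add_mul_div_right _ _ ha,
          Nat.div_eq_of_lt (by omega), zero_add]
  have hb : v / a * a ≤ v := Nat.div_mul_le_self _ _
  refine step v ((main v).trans ?_) ((main _).trans ?_)
  · refine Nat.mul_le_mul_left _ (Nat.pow_le_pow_right (by omega) ?_)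
    rw [← Nat.add_div_right _ ha]; exact Nat.div_le_div_right (by omega)
  · refine Nat.mul_le_mul (Nat.pow_le_pow_right (by omega) hb) (le_of_eq ?_)
    rw [show v / a * a + a - 1 = (a - 1) + v / a * a by omega, Nat.add_mul_div_right _ _ ha,
      Nat.div_eq_of_lt (by omega), zero_add]

section ls
variable {A α : Type} [Enc A α]

@[fun_prop] theorem LS.eqvN {q d ρ m x : α → ℕ} (hq : LS A q) (hd : LS A d) (hρ : LS A ρ)
    (hm : LS A m) (hx : LS A x) : LS A (fun a => eqvN (q a) (d a) (ρ a) (m a) (x a)) :=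
  LS.pmod hq hd (by fun_prop)

theorem LS.ML1N {q d W ρ m : α → ℕ} {f : α → ℕ → ℕ} (hq : LS A q) (hd : LS A d) (hW : LS A W)
    (hρ : LS A ρ) (hm : LS A m) (hf : LS A (fun p : α × ℕ => f p.1 p.2)) :
    LS A (fun a => ML1N (q a) (d a) (W a) (ρ a) (m a) (f a)) :=
  LS.smod hq hW (by fun_prop)

theorem LS.ML2N {q d W ρ ρ' m : α → ℕ} {f : α → ℕ → ℕ → ℕ} (hq : LS A q) (hd : LS A d)
    (hW : LS A W) (hρ : LS A ρ) (hρ' : LS A ρ') (hm : LS A m)
    (hf : LS A (fun p : (α × ℕ) × ℕ => f p.1.1 p.1.2 p.2)) :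
    LS A (fun a => ML2N (q a) (d a) (W a) (ρ a) (ρ' a) (m a) (f a)) :=
  LS.smod hq hW (LS.mul (by fun_prop) (LS.ML1N (f := fun p : α × ℕ => f p.1 p.2)
    (by fun_prop) (by fun_prop) (by fun_prop) (by fun_prop) (by fun_prop) hf))

@[fun_prop] theorem LS.dlN {q k e : α → ℕ} (hq : LS A q) (hk : LS A k) (he : LS A e) :
    LS A (fun a => dlN (q a) (k a) (e a)) :=
  LS.pmod hq hk (by fun_prop)

@[fun_prop] theorem LS.lE {x : α → ℕ} (hx : LS A x) : LS A (fun a => lE (x a)) := by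
  unfold P312.lE; fun_prop
@[fun_prop] theorem LS.lG {k x : α → ℕ} (hk : LS A k) (hx : LS A x) :
    LS A (fun a => lG (k a) (x a)) := by
  unfold P312.lG; fun_prop
@[fun_prop] theorem LS.lP {k G x y : α → ℕ} (hk : LS A k) (hG : LS A G) (hx : LS A x)
    (hy : LS A y) : LS A (fun a => lP (k a) (G a) (x a) (y a)) := by
  unfold P312.lP; fun_prop

@[fun_prop] theorem LS.LN {q k G b Z v : α → ℕ} (hq : LS A q) (hk : LS A k) (hG : LS A G)
    (hb : LS A b) (hZ : LS A Z) (hv : LS A v) :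
    LS A (fun a => LN (q a) (k a) (G a) (b a) (Z a) (v a)) := by
  refine LS.fst (LS.itr (β := ℕ × ℕ) hv (by fun_prop) (by fun_prop) hZ fun a i p _ => ?_)
  obtain ⟨x, y⟩ := p
  have := md_le (Z a) ((q a - 1) * P312.lP (k a) (G a) x (if i % b a = 0 then x else y))
  simp only [nrm_prod, nrm_nat]
  split_ifs at this ⊢ <;> omega

@[fun_prop] theorem LS.body {q k G LA LB bv v j o s i : α → ℕ} (hq : LS A q) (hk : LS A k)
    (hG : LS A G) (hLA : LS A LA) (hLB : LS A LB) (hbv : LS A bv) (hv : LS A v) (hj : LS A j)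
    (ho : LS A o) (hs : LS A s) (hi : LS A i) :
    LS A (fun a => body (q a) (k a) (G a) (LA a) (LB a) (bv a) (v a) (j a) (o a) (s a) (i a)) := by
  unfold P312.body per gblk trip repF catF; fun_prop

theorem nrm_body (q k G LA LB bv v j o s i M : ℕ) (h1 : bv ≤ M) (h2 : v ≤ M) (h3 : j ≤ M)
    (h4 : o ≤ M) (h5 : s ≤ M) (h6 : i ≤ M) :
    nrm A (P312.body q k G LA LB bv v j o s i) ≤ M + (q + 4) := by
  have d1 : ∀ x y : ℕ, x / y ≤ x := Nat.div_le_self
  have d2 : ∀ x y : ℕ, x % y ≤ x := Nat.mod_le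
  have c : ∀ (l : ℕ) (f g : ℕ → DS) (i : ℕ), i ≤ M → (∀ i ≤ M, nrm A (f i) ≤ M + (q + 4)) →
      (∀ i ≤ M, nrm A (g i) ≤ M + (q + 4)) → nrm A (catF l f g i) ≤ M + (q + 4) := by
    intro l f g i hi hf hg
    unfold catF; split_ifs
    · exact hf i hi
    · exact hg _ (by omega)
  have r : ∀ (l : ℕ) (f : ℕ → ℕ → DS) (i : ℕ), i ≤ M →
      (∀ j ≤ M, ∀ i ≤ M, nrm A (f j i) ≤ M + (q + 4)) → nrm A (repF l f i) ≤ M + (q + 4) :=
    fun l f i hi hf => hf _ ((d1 _ _).trans hi) _ ((d2 _ _).trans hi)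
  have t : ∀ g ≤ M, ∀ sg ≤ q + 1, ∀ j ≤ M, ∀ i ≤ M,
      nrm A (trip q LB bv v o g sg j i) ≤ M + (q + 4) := fun g hg sg hsg j hj i hi =>
    c _ _ _ _ hi (fun i hi => by simp; omega) fun i hi => c _ _ _ _ hi (fun i hi => by simp; omega)
      (fun i hi => by simp; omega)
  refine r _ _ _ h6 fun w hw i hi => c _ _ _ _ hi (fun i hi => by simp; omega) fun i hi =>
    c _ _ _ _ hi (fun i hi => by simp; omega) fun i hi => c _ _ _ _ hi (fun i hi => r _ _ _ hi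
      fun g hg i hi => c _ _ _ _ hi (fun i hi => r _ _ _ hi (t g hg _ (by omega))) fun i hi =>
        c _ _ _ _ hi (fun i hi => by simp; omega) fun i hi => r _ _ _ hi (t g hg _ (by omega)))
      fun i hi => c _ _ _ _ hi (fun i hi => by simp; omega) (fun i hi => by simp; omega)

@[fun_prop] theorem LS.dec {q k G b Z n : α → ℕ} {st : α → DS} (hq : LS A q) (hk : LS A k)
    (hG : LS A G) (hb : LS A b) (hZ : LS A Z) (hn : LS A n) (hst : LS A st) :
    LS A (fun a => dec (q a) (k a) (G a) (b a) (Z a) (n a) (st a)) := by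
  refine LS.itr (b := fun a => q a + 4) hn hst (by unfold dstep; fun_prop) (by fun_prop)
    fun a i p _ => ?_
  obtain ⟨t, v, j, o, s, i⟩ := p
  unfold dstep
  split_ifs
  · omega
  · simp; omega
  · have := Nat.div_mul_le_self (v - 1) (b a)
    refine nrm_body _ _ _ _ _ _ _ _ _ _ _ _ ?_ ?_ ?_ ?_ ?_ ?_ <;> simp <;> omega

theorem LS.resN {q d k W G b V Z : α → ℕ} {err : α → ℕ → ℕ → ℕ → ℕ → ℕ → ℕ}
    {H : α → ℕ → ℕ → ℕ → ℕ → ℕ} {N0 : α → ℕ → ℕ} (hq : LS A q) (hd : LS A d) (hk : LS A k)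
    (hW : LS A W) (hG : LS A G) (hb : LS A b) (hV : LS A V) (hZ : LS A Z)
    (herr : LS A (fun p : α × ℕ × ℕ × ℕ × ℕ × ℕ =>
      err p.1 p.2.1 p.2.2.1 p.2.2.2.1 p.2.2.2.2.1 p.2.2.2.2.2))
    (hH : LS A (fun p : α × ℕ × ℕ × ℕ × ℕ => H p.1 p.2.1 p.2.2.1 p.2.2.2.1 p.2.2.2.2))
    (hN : LS A (fun p : α × ℕ => N0 p.1 p.2)) :
    LS A (fun a => resN (q a) (d a) (k a) (W a) (G a) (b a) (V a) (Z a) (err a) (H a) (N0 a)) := by
  have h2 : LS A (fun p : α × DS × ℕ × ℕ => P312.ML2N (q p.1) (d p.1) (W p.1)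
      ((p.2.1.2.2.2.1 + 1) % 3) ((p.2.1.2.2.2.1 + 2) % 3) p.2.2.1
      (err p.1 p.2.1.2.1 p.2.1.2.2.1 p.2.1.2.2.2.2.2)) :=
    LS.ML2N (by fun_prop) (by fun_prop) (by fun_prop) (by fun_prop) (by fun_prop) (by fun_prop)
      (by fun_prop)
  have h1 : LS A (fun p : α × DS × ℕ × ℕ => P312.ML1N (q p.1) (d p.1) (W p.1)
      ((p.2.1.2.2.2.1 + 1) % 3) p.2.2.1
      (fun x => P312.dig 2 (H p.1 p.2.1.2.1 p.2.1.2.2.1 p.2.1.2.2.2.2.2 x) (p.2.2.2 % d p.1))) :=
    LS.ML1N (by fun_prop) (by fun_prop) (by fun_prop) (by fun_prop) (by fun_prop) (by fun_prop)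
  have h3 : LS A (fun p : α × DS × ℕ × ℕ => nd (q p.1) (d p.1) (k p.1) (W p.1) (err p.1) (H p.1)
      (N0 p.1) p.2.1 p.2.2.1 p.2.2.2) := by
    unfold nd
    refine LS.ite (by fun_prop) (by fun_prop) (LS.ite (by fun_prop)
      (LS.ite (by fun_prop) (LS.add (by fun_prop) (LS.mul (by fun_prop) h2)) (by fun_prop))
      (LS.ite (by fun_prop) (LS.ite (by fun_prop) (LS.add (by fun_prop) (LS.mul (by fun_prop) h1))
        (by fun_prop)) (by fun_prop)))
  have h4 : LS A (fun p : α × DS × ℕ => exN (q p.1) (d p.1) (k p.1) (W p.1) (Z p.1) (err p.1)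
      (H p.1) (N0 p.1) p.2.1 p.2.2) :=
    LS.ofd (by fun_prop) (by fun_prop) (by fun_prop) (LS.md (by fun_prop)
      (h3.comp (g := fun p : (α × DS × ℕ) × ℕ => (p.1.1, p.1.2.1, p.1.2.2, p.2)) (by fun_prop)))
  have h5 : LS A (fun a => memN (q a) (d a) (k a) (W a) (G a) (b a) (V a) (Z a) (err a) (H a)
      (N0 a)) :=
    LS.itrN (by fun_prop) (by fun_prop) (h4.comp (g := fun p : α × ℕ × ℕ =>
      (p.1, P312.dec (q p.1) (k p.1) (G p.1) (b p.1) (Z p.1) (V p.1 + 1) (0, V p.1, 0, 0, 1, p.2.1),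
        p.2.2)) (by fun_prop)) hZ (fun a _ _ _ => (md_le _ _).trans (by omega))
  exact LS.ofd hZ (by fun_prop) hd (LS.dig (by fun_prop) (h5.comp ls_fst) ls_snd)

end ls

end Vale.Agent.P312
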