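import Vale.Agent.P312.Arith

/-! Multilinear extensions and interpolation over a prime field. -/

namespace Vale.Agent.P312

open Finset Polynomial

section
variable {F : Type} [Field F]

def eqv (d : ℕ) (p : ℕ → F) (x : ℕ) : F := ∏ c ∈ range d, (if dig 2 x c = 1 then p c else 1 - p c)

def ML1 (d : ℕ) (f : ℕ → ℕ) (p : ℕ → F) : F := ∑ x ∈ range (2 ^ d), eqv d p x * (f x : F)

def ML2 (d : ℕ) (f : ℕ → ℕ → ℕ) (p p' : ℕ → F) : F :=
  ∑ x ∈ range (2 ^ d), eqv d p x * ML1 d (f x) p'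

def cut (d : ℕ) (β : ℕ → F) (c : ℕ) : F := if c < d then β c else 0

def bits (d x : ℕ) : ℕ → F := cut d (fun c => (dig 2 x c : F))

theorem eqv_bits {d x y : ℕ} (hx : x < 2 ^ d) (hy : y < 2 ^ d) :
    eqv d (bits d x : ℕ → F) y = if y = x then 1 else 0 := by
  split_ifs with h
  · subst h
    refine prod_eq_one fun c hc => ?_
    have h2 := dig_lt (show 0 < 2 by norm_num) y c
    simp only [bits, cut, if_pos (mem_range.1 hc)]
    split_ifs with h1
    · simp [h1]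
    · simp [show dig 2 y c = 0 by omega]
  · have : ∃ c < d, dig 2 y c ≠ dig 2 x c := by
      by_contra h'
      push Not at h'
      exact h (by rw [← ofd_dig hx, ← ofd_dig hy]; exact ofd_congr h')
    obtain ⟨c, hc, hne⟩ := this
    refine prod_eq_zero (mem_range.2 hc) ?_
    have h2 := dig_lt (show 0 < 2 by norm_num) y c
    have h3 := dig_lt (show 0 < 2 by norm_num) x c
    simp only [bits, cut, if_pos hc]
    split_ifs with h1
    · simp [show dig 2 x c = 0 by omega]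
    · simp [show dig 2 x c = 1 by omega]

theorem sum_eqv_bits {d x : ℕ} (hx : x < 2 ^ d) (g : ℕ → F) :
    ∑ y ∈ range (2 ^ d), eqv d (bits d x) y * g y = g x := by
  rw [sum_eq_single_of_mem x (mem_range.2 hx)]
  · rw [eqv_bits hx hx]; simp
  · intro y hy hne
    rw [eqv_bits hx (mem_range.1 hy)]; simp [hne]

theorem ML1_bits {d x : ℕ} (hx : x < 2 ^ d) (f : ℕ → ℕ) : ML1 d f (bits d x : ℕ → F) = f x :=
  sum_eqv_bits hx _

theorem ML2_bits {d x y : ℕ} (hx : x < 2 ^ d) (hy : y < 2 ^ d) (f : ℕ → ℕ → ℕ) :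
    ML2 d f (bits d x : ℕ → F) (bits d y) = f x y := by
  rw [ML2, sum_eqv_bits hx (fun x => ML1 d (f x) (bits d y)), ML1_bits hy]

/-- polynomial functions of bounded degree -/
def PD (n : ℕ) (φ : F → F) : Prop := ∃ P : F[X], P.natDegree ≤ n ∧ ∀ ω, φ ω = P.eval ω

theorem PD.mono {n n' : ℕ} {φ : F → F} (h : PD n φ) (hn : n ≤ n') : PD n' φ := by
  obtain ⟨P, h1, h2⟩ := h; exact ⟨P, h1.trans hn, h2⟩

theorem PD.const (n : ℕ) (c : F) : PD n (fun _ => c) := ⟨C c, by simp, by simp⟩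

theorem PD.id : PD 1 (fun ω : F => ω) := ⟨X, by simp, by simp⟩

theorem PD.add {n : ℕ} {φ ψ : F → F} (h : PD n φ) (h' : PD n ψ) : PD n (fun ω => φ ω + ψ ω) := by
  obtain ⟨P, h1, h2⟩ := h
  obtain ⟨Q, h3, h4⟩ := h'
  exact ⟨P + Q, (natDegree_add_le _ _).trans (max_le h1 h3), fun ω => by simp [h2, h4]⟩

theorem PD.mul {n n' : ℕ} {φ ψ : F → F} (h : PD n φ) (h' : PD n' ψ) :
    PD (n + n') (fun ω => φ ω * ψ ω) := by
  obtain ⟨P, h1, h2⟩ := h
  obtain ⟨Q, h3, h4⟩ := h'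
  exact ⟨P * Q, natDegree_mul_le.trans (add_le_add h1 h3), fun ω => by simp [h2, h4]⟩

theorem PD.cmul {n : ℕ} {φ : F → F} (h : PD n φ) (c : F) : PD n (fun ω => c * φ ω) := by
  simpa using (PD.const 0 c).mul h

theorem PD.mulc {n : ℕ} {φ : F → F} (h : PD n φ) (c : F) : PD n (fun ω => φ ω * c) := by
  simpa using h.mul (PD.const 0 c)

theorem PD.one_sub {n : ℕ} {φ : F → F} (h : PD n φ) : PD n (fun ω => 1 - φ ω) := by
  simpa [sub_eq_add_neg] using (PD.const n 1).add (h.cmul (-1))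

theorem PD.sum {n : ℕ} (m : ℕ) {φ : ℕ → F → F} (h : ∀ i, PD n (φ i)) :
    PD n (fun ω => ∑ i ∈ range m, φ i ω) := by
  induction m with
  | zero => simpa using PD.const n 0
  | succ m ih => simpa [sum_range_succ] using ih.add (h m)

theorem PD.prod {n : ℕ} (m : ℕ) {φ : ℕ → F → F} (h : ∀ i, PD n (φ i)) :
    PD (m * n) (fun ω => ∏ i ∈ range m, φ i ω) := by
  induction m with
  | zero => simpa using PD.const 0 (1 : F)
  | succ m ih => simpa [prod_range_succ, add_mul] using ih.mul (h m)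

theorem PD.eqv (d : ℕ) {p : F → ℕ → F} (h : ∀ c, PD 1 (fun ω => p ω c)) (x : ℕ) :
    PD d (fun ω => eqv d (p ω) x) := by
  have := PD.prod d (φ := fun c ω => if dig 2 x c = 1 then p ω c else 1 - p ω c) (n := 1)
    (fun c => by
      split_ifs
      · exact h c
      · exact (h c).one_sub)
  simpa [P312.eqv] using this

theorem PD.ML1 (d : ℕ) (f : ℕ → ℕ) {p : F → ℕ → F} (h : ∀ c, PD 1 (fun ω => p ω c)) :
    PD d (fun ω => ML1 d f (p ω)) :=
  PD.sum _ fun x => (PD.eqv d h x).mulc _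

theorem PD.ML2 (d : ℕ) (f : ℕ → ℕ → ℕ) {p p' : F → ℕ → F} (h : ∀ c, PD 1 (fun ω => p ω c))
    (h' : ∀ c, PD 1 (fun ω => p' ω c)) : PD (d + d) (fun ω => ML2 d f (p ω) (p' ω)) :=
  PD.sum _ fun x => (PD.eqv d h x).mul (PD.ML1 d (f x) h')

end

theorem sum_zmod {q : ℕ} [hq : Fact q.Prime] (φ : ZMod q → ZMod q) :
    ∑ x, φ x = φ 0 + ∑ w ∈ range (q - 1), φ ((w + 1 : ℕ) : ZMod q) := by
  have h1 := hq.out.pos
  have : ∑ x, φ x = ∑ w ∈ range q, φ (w : ZMod q) := by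
    symm
    refine sum_bij (fun w _ => (w : ZMod q)) (fun _ _ => mem_univ _) (fun a ha b hb h => ?_)
      (fun b _ => ⟨b.val, mem_range.2 (ZMod.val_lt b), ZMod.natCast_zmod_val b⟩) (fun _ _ => rfl)
    have := congrArg ZMod.val h
    rwa [ZMod.val_natCast_of_lt (mem_range.1 ha), ZMod.val_natCast_of_lt (mem_range.1 hb)] at this
  rw [this]
  obtain ⟨q', rfl⟩ : ∃ q', q = q' + 1 := ⟨q - 1, by omega⟩
  rw [sum_range_succ', Nat.add_sub_cancel, Nat.cast_zero]; exact add_comm _ _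

theorem PD.interp {q : ℕ} [hq : Fact q.Prime] {n : ℕ} {φ : ZMod q → ZMod q} (h : PD n φ)
    (hn : n < q - 1) : ∑ w ∈ range (q - 1), φ ((w + 1 : ℕ) : ZMod q) = -φ 0 := by
  obtain ⟨P, h1, h2⟩ := h
  have : ∑ x, φ x = 0 := by
    simp only [h2, eval_eq_sum_range]
    rw [sum_comm]
    refine sum_eq_zero fun i hi => ?_
    rw [← mul_sum, FiniteField.sum_pow_lt_card_sub_one, mul_zero]
    rw [ZMod.card]
    have := mem_range.1 hi
    omega
  rw [sum_zmod] at this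
  linear_combination this

theorem mul_pow_inv {q : ℕ} [hq : Fact q.Prime] {c : ℕ} (h0 : 0 < c) (h1 : c < q) :
    (c : ZMod q) ^ (q - 2) * c = 1 := by
  have h2 := hq.out.two_le
  have : (c : ZMod q) ≠ 0 := by
    rw [Ne, ZMod.natCast_eq_zero_iff]
    exact Nat.not_dvd_of_pos_of_lt h0 h1
  rw [← pow_succ, show q - 2 + 1 = q - 1 by omega]
  exact ZMod.pow_card_sub_one_eq_one this

theorem cast_pred {q : ℕ} [hq : Fact q.Prime] : ((q - 1 : ℕ) : ZMod q) = -1 := by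
  rw [Nat.cast_sub hq.out.one_le]; simp

def dl (q k : ℕ) (e : ZMod q) : ZMod q := ∏ c ∈ range k, (1 - e * ((c + 1 : ℕ) : ZMod q) ^ (q - 2))

theorem dl_cast {q k e : ℕ} [hq : Fact q.Prime] (hk : k < q) (he : e ≤ k) :
    dl q k (e : ZMod q) = if e = 0 then 1 else 0 := by
  split_ifs with h
  · simp [dl, h]
  · refine prod_eq_zero (mem_range.2 (show e - 1 < k by omega)) ?_
    rw [show e - 1 + 1 = e by omega, mul_comm, mul_pow_inv (by omega) (by omega), sub_self]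

theorem PD.dl {q : ℕ} [hq : Fact q.Prime] (k : ℕ) {n : ℕ} {φ : ZMod q → ZMod q} (h : PD n φ) :
    PD (k * n) (fun ω => dl q k (φ ω)) :=
  PD.prod k fun _ => (h.mulc _).one_sub

end Vale.Agent.P312
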