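import Vale.Agent.P312.Defs

/-! Structured stack programs and their compilation to multitape machines. -/

namespace Vale.Agent.P312

open Function

inductive Act
  | push (r : ℕ) (b : Bool)
  | pop (r : ℕ)
  | mv (m : Move)

inductive Cond (A : Type)
  | top (r : ℕ) (f : Option Bool → Bool)
  | inp (f : InSym A → Bool)

inductive Prog (A : Type)
  | act (a : Act)
  | seq (p q : Prog A)
  | ite (c : Cond A) (p q : Prog A)
  | loop (c : Cond A) (p : Prog A)

structure St where
  reg : ℕ → List Bool
  pos : ℕ

variable {A : Type}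

def Act.run (n : ℕ) : Act → St → St
  | .push r b, σ => ⟨update σ.reg r (b :: σ.reg r), σ.pos⟩
  | .pop r, σ => ⟨update σ.reg r (σ.reg r).tail, σ.pos⟩
  | .mv m, σ => ⟨σ.reg, m.onInput n σ.pos⟩

def Act.ok (S : ℕ) : Act → St → Prop
  | .push r _, σ => (σ.reg r).length < S
  | _, _ => True

def Cond.ev : Cond A → (ℕ → Option Bool) → InSym A → Bool
  | .top r f, t, _ => f (t r)
  | .inp f, _, s => f s

def Cond.on (c : Cond A) (x : List A) (σ : St) : Bool :=
  c.ev (fun r => (σ.reg r).head?) (inSym x σ.pos)

inductive Exec (x : List A) (S : ℕ) : Prog A → St → St → Prop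
  | act (a : Act) (σ : St) : a.ok S σ → Exec x S (.act a) σ (a.run x.length σ)
  | seq {p q σ σ' σ''} : Exec x S p σ σ' → Exec x S q σ' σ'' → Exec x S (.seq p q) σ σ''
  | iteT {c p q σ σ'} : c.on x σ = true → Exec x S p σ σ' → Exec x S (.ite c p q) σ σ'
  | iteF {c p q σ σ'} : c.on x σ = false → Exec x S q σ σ' → Exec x S (.ite c p q) σ σ'
  | loopF {c p σ} : c.on x σ = false → Exec x S (.loop c p) σ σ
  | loopT {c p σ σ' σ''} : c.on x σ = true → Exec x S p σ σ' → Exec x S (.loop c p) σ' σ'' →
      Exec x S (.loop c p) σ σ''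

@[reducible] def Lab : Prog A → Type
  | .act _ => Unit
  | .seq p q => Lab p ⊕ Lab q
  | .ite _ p q => Option (Lab p ⊕ Lab q)
  | .loop _ p => Option (Lab p)

theorem lab_finite : (p : Prog A) → Finite (Lab p)
  | .act _ => inferInstanceAs (Finite Unit)
  | .seq p q => by
      have := lab_finite p; have := lab_finite q
      exact inferInstanceAs (Finite (Lab p ⊕ Lab q))
  | .ite _ p q => by
      have := lab_finite p; have := lab_finite q
      exact inferInstanceAs (Finite (Option (Lab p ⊕ Lab q)))
  | .loop _ p => by
      have := lab_finite p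
      exact inferInstanceAs (Finite (Option (Lab p)))

def entry : (p : Prog A) → Lab p
  | .act _ => ()
  | .seq p _ => Sum.inl (entry p)
  | .ite _ _ _ => none
  | .loop _ _ => none

abbrev Nx (A Λ : Type) := Λ → (ℕ → Option Bool) → InSym A → Act × Option Λ

def emb {Λ Λ' : Type} (f : Λ → Λ') (e : Option Λ') (z : Act × Option Λ) : Act × Option Λ' :=
  (z.1, z.2.elim e (fun l => some (f l)))

def next : (p : Prog A) → Nx A (Lab p)
  | .act a => fun _ _ _ => (a, none)
  | .seq p q => fun l t s =>
      match l with
      | Sum.inl l => emb Sum.inl (some (Sum.inr (entry q))) (next p l t s)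
      | Sum.inr l => emb Sum.inr none (next q l t s)
  | .ite c p q => fun l t s =>
      match l with
      | none => (.mv .stay, some (some (if c.ev t s then Sum.inl (entry p) else Sum.inr (entry q))))
      | some (Sum.inl l) => emb (fun l => some (Sum.inl l)) none (next p l t s)
      | some (Sum.inr l) => emb (fun l => some (Sum.inr l)) none (next q l t s)
  | .loop c p => fun l t s =>
      match l with
      | none => (.mv .stay, if c.ev t s then some (some (entry p)) else none)
      | some l => emb some (some none) (next p l t s)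

def nxt {Λ : Type} (nx : Nx A Λ) (x : List A) (l : Λ) (σ : St) : Act × Option Λ :=
  nx l (fun r => (σ.reg r).head?) (inSym x σ.pos)

inductive Runs {Λ : Type} (x : List A) (S : ℕ) (nx : Nx A Λ) : Option Λ → St → St → Prop
  | done (σ : St) : Runs x S nx none σ σ
  | step (l : Λ) (σ σ' : St) : (nxt nx x l σ).1.ok S σ →
      Runs x S nx (nxt nx x l σ).2 ((nxt nx x l σ).1.run x.length σ) σ' → Runs x S nx (some l) σ σ'

theorem Runs.emb {Λ Λ' : Type} {x : List A} {S : ℕ} {nx : Nx A Λ} {nx' : Nx A Λ'} (f : Λ → Λ')
    (e : Option Λ') (h : ∀ l t s, nx' (f l) t s = emb f e (nx l t s)) {ol σ σ' σ''}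
    (h1 : Runs x S nx ol σ σ') (h2 : Runs x S nx' e σ' σ'') :
    Runs x S nx' (ol.elim e (fun l => some (f l))) σ σ'' := by
  induction h1 with
  | done σ => exact h2
  | step l σ σ' hok _ ih =>
    have e1 : nxt nx' x (f l) σ = P312.emb f e (nxt nx x l σ) := h _ _ _
    refine Runs.step (f l) σ σ'' ?_ ?_
    · rw [e1]; exact hok
    · rw [e1]; exact ih h2

theorem Runs.step' {Λ : Type} {x : List A} {S : ℕ} {nx : Nx A Λ} {l : Λ} {σ σ' : St} {ol}
    (e : nxt nx x l σ = (.mv .stay, ol)) (h : Runs x S nx ol σ σ') : Runs x S nx (some l) σ σ' := by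
  refine Runs.step l σ σ' ?_ ?_
  · rw [e]; trivial
  · rw [e]; exact h

theorem stay_run (n : ℕ) (σ : St) : (Act.mv .stay).run n σ = σ := rfl

theorem Exec.runs {x : List A} {S : ℕ} {p σ σ'} (h : Exec x S p σ σ') :
    Runs x S (next p) (some (entry p)) σ σ' := by
  induction h with
  | act a σ h => exact Runs.step _ _ _ h (Runs.done _)
  | @seq p q σ σ' σ'' _ _ ih1 ih2 =>
    have h2 : Runs x S (next (.seq p q)) (some (Sum.inr (entry q))) σ' σ'' :=
      Runs.emb (nx' := next (.seq p q)) Sum.inr none (fun _ _ _ => rfl) ih2 (Runs.done _)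
    exact Runs.emb (nx' := next (.seq p q)) Sum.inl _ (fun _ _ _ => rfl) ih1 h2
  | @iteT c p q σ σ' hc _ ih =>
    have h2 := Runs.emb (nx' := next (.ite c p q)) (fun l => some (Sum.inl l)) none
      (fun _ _ _ => rfl) ih (Runs.done _)
    have e : nxt (next (.ite c p q)) x none σ = (.mv .stay, some (some (Sum.inl (entry p)))) := by
      have hc' : c.ev (fun r => (σ.reg r).head?) (inSym x σ.pos) = true := hc
      simp only [nxt, next, hc', if_true]
    exact Runs.step' e h2
  | @iteF c p q σ σ' hc _ ih =>
    have h2 := Runs.emb (nx' := next (.ite c p q)) (fun l => some (Sum.inr l)) none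
      (fun _ _ _ => rfl) ih (Runs.done _)
    have e : nxt (next (.ite c p q)) x none σ = (.mv .stay, some (some (Sum.inr (entry q)))) := by
      have hc' : c.ev (fun r => (σ.reg r).head?) (inSym x σ.pos) = false := hc
      simp only [nxt, next, hc']; rfl
    exact Runs.step' e h2
  | @loopF c p σ hc =>
    have e : nxt (next (.loop c p)) x none σ = (.mv .stay, none) := by
      have hc' : c.ev (fun r => (σ.reg r).head?) (inSym x σ.pos) = false := hc
      simp only [nxt, next, hc']; rfl
    exact Runs.step' e (Runs.done _)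
  | @loopT c p σ σ' σ'' hc _ _ ih1 ih2 =>
    have h2 := Runs.emb (nx' := next (.loop c p)) some (some none) (fun _ _ _ => rfl) ih1 ih2
    have e : nxt (next (.loop c p)) x none σ = (.mv .stay, some (some (entry p))) := by
      have hc' : c.ev (fun r => (σ.reg r).head?) (inSym x σ.pos) = true := hc
      simp only [nxt, next, hc', if_true]
    exact Runs.step' e h2

def Cond.bd : Cond A → ℕ
  | .top r _ => r
  | .inp _ => 0

def Prog.bd : Prog A → ℕ
  | .act _ => 0
  | .seq p q => max p.bd q.bd
  | .ite c p q => max c.bd (max p.bd q.bd)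
  | .loop c p => max c.bd p.bd

theorem Cond.ev_congr (c : Cond A) {t t' : ℕ → Option Bool} (s : InSym A)
    (h : ∀ r ≤ c.bd, t r = t' r) : c.ev t s = c.ev t' s := by
  cases c with
  | top r f => simp only [Cond.ev]; rw [h r le_rfl]
  | inp f => rfl

theorem next_congr : (p : Prog A) → (l : Lab p) → {t t' : ℕ → Option Bool} → (s : InSym A) →
    (∀ r ≤ p.bd, t r = t' r) → next p l t s = next p l t' s
  | .act _, _, _, _, _, _ => rfl
  | .seq p q, Sum.inl l, _, _, s, h => by
      simp only [next]
      rw [next_congr p l s (fun r hr => h r (hr.trans (le_max_left _ _)))]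
  | .seq p q, Sum.inr l, _, _, s, h => by
      simp only [next]
      rw [next_congr q l s (fun r hr => h r (hr.trans (le_max_right _ _)))]
  | .ite c p q, none, _, _, s, h => by
      simp only [next]
      rw [c.ev_congr s (fun r hr => h r (hr.trans (le_max_left _ _)))]
  | .ite c p q, some (Sum.inl l), _, _, s, h => by
      simp only [next]
      rw [next_congr p l s (fun r hr => h r
        (hr.trans ((le_max_left _ _).trans (le_max_right _ _))))]
  | .ite c p q, some (Sum.inr l), _, _, s, h => by
      simp only [next]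
      rw [next_congr q l s (fun r hr => h r
        (hr.trans ((le_max_right _ _).trans (le_max_right _ _))))]
  | .loop c p, none, _, _, s, h => by
      simp only [next]
      rw [c.ev_congr s (fun r hr => h r (hr.trans (le_max_left _ _)))]
  | .loop c p, some l, _, _, s, h => by
      simp only [next]
      rw [next_congr p l s (fun r hr => h r (hr.trans (le_max_right _ _)))]

/-! The machine. -/

def Act.pend : Act → ℕ → Option Bool
  | .push r b, i => if i = r then some b else none
  | _, _ => none

def Act.hmove : Act → ℕ → Option Bool → Move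
  | .push r _, i, _ => if i = r then .right else .stay
  | .pop r, i, o => if i = r ∧ o.isSome then .left else .stay
  | .mv _, _, _ => .stay

def Act.imove : Act → Move
  | .mv m => m
  | _ => .stay

def ext (k : ℕ) (g : Fin k → Option Bool) (r : ℕ) : Option Bool :=
  if h : r < k then g ⟨r, h⟩ else none

abbrev MQ (Λ : Type) (k : ℕ) := Option Λ ⊕ (Option Λ × (Fin k → Option Bool)) ⊕ Bool

def mδ {Λ : Type} (nx : Nx A Λ) (k : ℕ) :
    MQ Λ k → InSym A → (Fin k → Option Bool) → MQ Λ k × Move × (Fin k → Option Bool × Move)
  | Sum.inl (some l), s, g =>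
      (Sum.inr (Sum.inl ((nx l (ext k g) s).2, fun i => (nx l (ext k g) s).1.pend i)),
        (nx l (ext k g) s).1.imove, fun i => (g i, (nx l (ext k g) s).1.hmove i (g i)))
  | Sum.inl none, _, g => (Sum.inr (Sum.inr ((ext k g 1).getD false)), .stay, fun i => (g i, .stay))
  | Sum.inr (Sum.inl z), _, g => (Sum.inl z.1, .stay, fun i => ((z.2 i).or (g i), .stay))
  | Sum.inr (Sum.inr b), _, g => (Sum.inr (Sum.inr b), .stay, fun i => (g i, .stay))

def mout {Λ : Type} {k : ℕ} : MQ Λ k → Option Bool
  | Sum.inr (Sum.inr b) => some b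
  | _ => none

@[reducible] def mach {Λ : Type} [Finite Λ] (nx : Nx A Λ) (l0 : Λ) (k : ℕ) : MultiTape A where
  k := k
  Q := MQ Λ k
  Γ := Option Bool
  finQ := inferInstance
  finΓ := inferInstance
  blank := none
  start := Sum.inl (some l0)
  out := mout
  δ := mδ nx k

def Holds (T : ℤ → Option Bool) : List Bool → Prop
  | [] => T 0 = none
  | b :: l => T ((l.length : ℤ) + 1) = some b ∧ Holds T l

theorem Holds.update {T : ℤ → Option Bool} {l : List Bool} (h : Holds T l) {z : ℤ}
    (hz : (l.length : ℤ) < z) (v : Option Bool) : Holds (update T z v) l := by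
  induction l with
  | nil =>
    simp only [Holds] at h ⊢
    rw [update_of_ne (by simp at hz; omega)]; exact h
  | cons b l ih =>
    simp only [Holds, List.length_cons] at h hz ⊢
    push_cast at hz
    refine ⟨?_, ih h.2 (by omega)⟩
    rw [update_of_ne (by omega)]; exact h.1

theorem Holds.top {T : ℤ → Option Bool} {l : List Bool} (h : Holds T l) :
    T l.length = l.head? := by
  cases l with
  | nil => exact h
  | cons b l => simpa using h.1

section
variable {Λ : Type} [Finite Λ] (nx : Nx A Λ) (l0 : Λ) (k : ℕ) (x : List A) (S : ℕ)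

def Rep (σ : St) (c : (mach nx l0 k).Cfg) : Prop :=
  c.pos = σ.pos ∧ ∀ i : Fin k, c.heads i = (σ.reg i).length ∧ Holds (c.tapes i) (σ.reg i) ∧
    (σ.reg i).length ≤ S

def Safe (c : (mach nx l0 k).Cfg) : Prop := ∀ i : Fin k, 0 ≤ c.heads i ∧ c.heads i ≤ S

def Good (b : Bool) (c : (mach nx l0 k).Cfg) : Prop :=
  (∃ m, (mach nx l0 k).out (((mach nx l0 k).step x)^[m] c).state = some b) ∧
    ∀ m, Safe nx l0 k S (((mach nx l0 k).step x)^[m] c)

variable {nx l0 k x S}

theorem Good.back {b : Bool} {c : (mach nx l0 k).Cfg} (hs : Safe nx l0 k S c)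
    (h : Good nx l0 k x S b ((mach nx l0 k).step x c)) : Good nx l0 k x S b c := by
  obtain ⟨⟨m, hm⟩, h2⟩ := h
  refine ⟨⟨m + 1, hm⟩, fun m => ?_⟩
  cases m with
  | zero => exact hs
  | succ m => exact h2 m

theorem Good.halt {b : Bool} {c : (mach nx l0 k).Cfg} (hs : Safe nx l0 k S c)
    (h : c.state = Sum.inr (Sum.inr b)) : Good nx l0 k x S b c := by
  have ho : (mach nx l0 k).out c.state = some b := by rw [h]; rfl
  have e : (mach nx l0 k).step x c = c := by
    unfold MultiTape.step; rw [ho]; rfl
  refine ⟨⟨0, ho⟩, fun m => ?_⟩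
  rw [Function.iterate_fixed e]; exact hs

theorem Rep.safe {σ : St} {c : (mach nx l0 k).Cfg} (h : Rep nx l0 k S σ c) : Safe nx l0 k S c := by
  intro i
  obtain ⟨h1, _, h3⟩ := h.2 i
  rw [h1]; constructor
  · positivity
  · exact_mod_cast h3

theorem step_eq (c : (mach nx l0 k).Cfg) (h : mout c.state = none) :
    (mach nx l0 k).step x c =
      { state := (mδ nx k c.state (inSym x c.pos) (fun i => c.tapes i (c.heads i))).1
        pos := (mδ nx k c.state (inSym x c.pos) (fun i => c.tapes i (c.heads i))).2.1.onInput
          x.length c.pos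
        tapes := fun i => Function.update (c.tapes i) (c.heads i)
          ((mδ nx k c.state (inSym x c.pos) (fun i => c.tapes i (c.heads i))).2.2 i).1
        heads := fun i => c.heads i +
          ((mδ nx k c.state (inSym x c.pos) (fun i => c.tapes i (c.heads i))).2.2 i).2.toInt } := by
  unfold MultiTape.step
  have : (mach nx l0 k).out c.state = none := h
  rw [this]; rfl

theorem Runs.good (hk : 1 < k)
    (hnx : ∀ l t t' s, (∀ r < k, t r = t' r) → nx l t s = nx l t' s)
    {ol σ σ'} (h : Runs x S nx ol σ σ') {b : Bool} (hb : (σ'.reg 1).head? = some b) :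
    ∀ c : (mach nx l0 k).Cfg, Rep nx l0 k S σ c → c.state = Sum.inl ol → Good nx l0 k x S b c := by
  induction h with
  | done σ =>
    intro c hr hc
    refine Good.back hr.safe (Good.halt ?_ ?_)
    · rw [step_eq c (by rw [hc]; rfl), hc]
      intro i
      have := hr.safe i
      simpa [mδ, Move.toInt] using this
    · rw [step_eq c (by rw [hc]; rfl), hc]
      have h1 := hr.2 ⟨1, hk⟩
      have h2 := h1.2.1.top
      simp only [mδ, ext, dif_pos hk, h1.1, h2, hb, Option.getD_some]
  | step l σ σ' hok _ ih =>
    intro c hr hc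
    have hg : ∀ i : Fin k, c.tapes i (c.heads i) = (σ.reg i).head? := fun i => by
      rw [(hr.2 i).1]; exact (hr.2 i).2.1.top
    have e : nx l (ext k (fun i => c.tapes i (c.heads i))) (inSym x c.pos) = nxt nx x l σ := by
      rw [hr.1]
      refine hnx _ _ _ _ fun r hr' => ?_
      simp only [ext, dif_pos hr', hg]
    set c1 := (mach nx l0 k).step x c with hc1
    have e1 := step_eq (x := x) c (by rw [hc]; rfl)
    rw [← hc1, hc] at e1
    simp only [mδ, e, update_eq_self] at e1
    have s1 : c1.state = Sum.inr (Sum.inl ((nxt nx x l σ).2,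
        fun i : Fin k => (nxt nx x l σ).1.pend i)) := by rw [e1]
    have e2 := step_eq (x := x) c1 (by rw [s1]; rfl)
    rw [s1] at e2
    simp only [mδ] at e2
    have hrep : Rep nx l0 k S ((nxt nx x l σ).1.run x.length σ) ((mach nx l0 k).step x c1) := by
      rw [e2]
      generalize (nxt nx x l σ).1 = a at *
      constructor
      · rw [e1]
        cases a <;> simp [Act.imove, Act.run, Move.onInput, hr.1]
      · intro i
        obtain ⟨h1, h2, h3⟩ := hr.2 i
        rw [e1]
        simp only [hg]
        cases a with
        | push r b =>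
          by_cases hi : (i : ℕ) = r
          · subst hi
            simp only [Act.run, Act.pend, Act.hmove, if_true, update_self, Move.toInt, h1,
              List.length_cons, Holds, Option.some_or]
            refine ⟨by push_cast; ring, ⟨by simp, h2.update (by omega) _⟩, hok⟩
          · simp only [Act.run, Act.pend, Act.hmove, if_neg hi, update_of_ne hi, Move.toInt,
              add_zero, Option.none_or, update_eq_self]
            exact ⟨h1, h2, h3⟩
        | pop r =>
          simp only [Act.run, Act.pend, Act.hmove, Option.none_or, update_eq_self, add_zero,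
            Move.toInt]
          by_cases hi : (i : ℕ) = r
          · subst hi
            simp only [update_self, true_and]
            cases hl : σ.reg i with
            | nil =>
              rw [hl] at h1 h2
              simpa [h1] using h2
            | cons b l =>
              rw [hl] at h1 h2 h3
              simp only [List.head?_cons, Option.isSome_some, if_true, h1, List.length_cons,
                List.tail_cons] at h3 ⊢
              exact ⟨by push_cast; ring, h2.2, by omega⟩
          · simp only [update_of_ne hi, hi, false_and, if_false, add_zero]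
            exact ⟨h1, h2, h3⟩
        | mv m =>
          simp only [Act.run, Act.pend, Act.hmove, Option.none_or, update_eq_self, add_zero,
            Move.toInt]
          exact ⟨h1, h2, h3⟩
    have hs1 : Safe nx l0 k S c1 := by
      intro i
      have := hrep.safe i
      rw [e2] at this
      simpa [Move.toInt] using this
    refine Good.back hr.safe (Good.back hs1 (ih hb _ hrep ?_))
    rw [e2]

end

def St.init : St := ⟨fun _ => [], 0⟩

theorem compile (p : Prog A) : ∃ M : MultiTape A, ∀ (x : List A) (S : ℕ) (σ : St) (b : Bool),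
    Exec x S p St.init σ → (σ.reg 1).head? = some b →
    (∃ m, M.out ((M.step x)^[m] M.init).state = some b) ∧
      ∀ m i, 0 ≤ ((M.step x)^[m] M.init).heads i ∧ ((M.step x)^[m] M.init).heads i ≤ S := by
  have := lab_finite p
  refine ⟨mach (next p) (entry p) (p.bd + 2), fun x S σ b h hb => ?_⟩
  refine h.runs.good (l0 := entry p) (k := p.bd + 2) (by omega)
    (fun l t t' s h => next_congr p l s fun r hr => h r (by omega)) hb _ ?_ rfl
  refine ⟨rfl, fun i => ⟨rfl, rfl, Nat.zero_le _⟩⟩

end Vale.Agent.P312
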