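import Vale.Agent.P312.Prog

/-! Basic stack programs: clearing, copying, successor, predecessor. -/

namespace Vale.Agent.P312

open Function

variable {A : Type}

/-- Value of a stack in bijective base two. -/
def val : List Bool → ℕ
  | [] => 0
  | b :: l => 2 * val l + 1 + b.toNat

theorem two_pow_len (l : List Bool) : 2 ^ l.length ≤ val l + 1 := by
  induction l with
  | nil => simp [val]
  | cons b l ih => simp only [List.length_cons, val, pow_succ]; omega

theorem len_le {l : List Bool} {S : ℕ} (h : val l < 2 ^ S) : l.length ≤ S := by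
  have := two_pow_len l
  exact (Nat.pow_le_pow_iff_right (by norm_num : 1 < 2)).1 (by omega)

theorem val_eq_zero {l : List Bool} : val l = 0 ↔ l = [] := by
  cases l <;> simp [val]

def St.set (σ : St) (r : ℕ) (l : List Bool) : St := ⟨update σ.reg r l, σ.pos⟩

@[simp] theorem St.set_reg (σ : St) (r : ℕ) (l : List Bool) (i : ℕ) :
    (σ.set r l).reg i = if i = r then l else σ.reg i := by
  simp [St.set, update_apply]

@[simp] theorem St.set_pos (σ : St) (r : ℕ) (l : List Bool) : (σ.set r l).pos = σ.pos := rfl

theorem St.ext' {σ σ' : St} (h : ∀ i, σ.reg i = σ'.reg i) (h' : σ.pos = σ'.pos) : σ = σ' := by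
  cases σ; cases σ'; simp only [St.mk.injEq]; exact ⟨funext h, h'⟩

theorem Exec.of_eq {x : List A} {S : ℕ} {p σ σ' σ''} (h : Exec x S p σ σ') (e : σ' = σ'') :
    Exec x S p σ σ'' := e ▸ h

def push (r : ℕ) (b : Bool) : Prog A := .act (.push r b)
def pop (r : ℕ) : Prog A := .act (.pop r)
def skip : Prog A := .act (.mv .stay)
def cNe (r : ℕ) : Cond A := .top r Option.isSome
def cIs (r : ℕ) (b : Bool) : Cond A := .top r (fun o => o == some b)

variable {x : List A} {S : ℕ}

theorem ex_push (r : ℕ) (b : Bool) (σ : St) (h : (σ.reg r).length < S) :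
    Exec x S (push r b) σ (σ.set r (b :: σ.reg r)) := Exec.act (.push r b) σ h
theorem ex_pop (r : ℕ) (σ : St) : Exec x S (pop r) σ (σ.set r (σ.reg r).tail) :=
  Exec.act (.pop r) σ trivial
theorem ex_skip (σ : St) : Exec x S skip σ σ := Exec.act (.mv .stay) σ trivial

@[simp] theorem cNe_on (r : ℕ) (σ : St) : (cNe r : Cond A).on x σ = (σ.reg r).head?.isSome := rfl
@[simp] theorem cIs_on (r : ℕ) (b : Bool) (σ : St) :
    (cIs r b : Cond A).on x σ = ((σ.reg r).head? == some b) := rfl

def clear (r : ℕ) : Prog A := .loop (cNe r) (pop r)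

theorem ex_clear (r : ℕ) (σ : St) : Exec x S (clear r) σ (σ.set r []) := by
  generalize hl : σ.reg r = l
  induction l generalizing σ with
  | nil =>
    refine (Exec.loopF (by simp [hl])).of_eq (St.ext' (fun i => ?_) rfl)
    by_cases h : i = r <;> simp [h, hl]
  | cons b l ih =>
    refine (Exec.loopT (by simp [hl]) (ex_pop r σ) (ih _ (by simp [hl]))).of_eq
      (St.ext' (fun i => ?_) rfl)
    by_cases h : i = r <;> simp [h]

/-- push on `s` the top bit of `r` -/
def pushTop (r s : ℕ) : Prog A := .ite (cIs r true) (push s true) (push s false)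

theorem ex_pushTop (r s : ℕ) (σ : St) {b l} (hl : σ.reg r = b :: l) (h : (σ.reg s).length < S) :
    Exec x S (pushTop r s) σ (σ.set s (b :: σ.reg s)) := by
  cases b
  · exact Exec.iteF (by simp [hl]) (ex_push _ _ _ h)
  · exact Exec.iteT (by simp [hl]) (ex_push _ _ _ h)

def mvAll (r s : ℕ) : Prog A := .loop (cNe r) (.seq (pushTop r s) (pop r))

theorem ex_mvAll {r s : ℕ} (hrs : r ≠ s) (σ : St)
    (h : (σ.reg r).length + (σ.reg s).length ≤ S) :
    Exec x S (mvAll r s) σ ((σ.set r []).set s ((σ.reg r).reverse ++ σ.reg s)) := by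
  generalize hl : σ.reg r = l at h
  induction l generalizing σ with
  | nil =>
    refine (Exec.loopF (by simp [hl])).of_eq (St.ext' (fun i => ?_) rfl)
    by_cases h : i = r <;> by_cases h' : i = s <;> simp_all
  | cons b l ih =>
    simp only [List.length_cons] at h
    refine (Exec.loopT (by simp [hl])
      ((ex_pushTop r s σ hl (by omega)).seq (ex_pop r _)) (ih _ (by simp [hl, hrs])
        (by simp [hrs.symm]; omega))).of_eq (St.ext' (fun i => ?_) rfl)
    by_cases h : i = r <;> by_cases h' : i = s <;> simp_all [hrs.symm]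

def dupAll (t r s : ℕ) : Prog A :=
  .loop (cNe t) (.seq (pushTop t r) (.seq (pushTop t s) (pop t)))

theorem ex_dupAll {t r s : ℕ} (h1 : t ≠ r) (h2 : t ≠ s) (h3 : r ≠ s) (σ : St)
    (h : (σ.reg t).length + (σ.reg r).length ≤ S) (h' : (σ.reg t).length + (σ.reg s).length ≤ S) :
    Exec x S (dupAll t r s) σ (((σ.set t []).set r ((σ.reg t).reverse ++ σ.reg r)).set s
      ((σ.reg t).reverse ++ σ.reg s)) := by
  generalize hl : σ.reg t = l at h h'
  induction l generalizing σ with
  | nil =>
    refine (Exec.loopF (by simp [hl])).of_eq (St.ext' (fun i => ?_) rfl)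
    by_cases h : i = r <;> by_cases h' : i = s <;> by_cases h'' : i = t <;> simp_all
  | cons b l ih =>
    simp only [List.length_cons] at h h'
    refine (Exec.loopT (by simp [hl])
      ((ex_pushTop t r σ hl (by omega)).seq ((ex_pushTop t s _ (b := b) (l := l) (by simp [hl, h1])
        (by simp [h3.symm]; omega)).seq (ex_pop t _))) (ih _ (by simp [hl, h1, h2])
        (by simp [h1.symm, h3]; omega) (by simp [h2.symm, h3.symm]; omega))).of_eq
      (St.ext' (fun i => ?_) rfl)
    by_cases h : i = r <;> by_cases h' : i = s <;> by_cases h'' : i = t <;>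
      simp_all [h1.symm, h2.symm, h3.symm]

/-- copy register `r` to register `s`, using `t` -/
def copy (r s t : ℕ) : Prog A :=
  .seq (clear s) (.seq (clear t) (.seq (mvAll r t) (dupAll t r s)))

theorem ex_copy {r s t : ℕ} (h1 : t ≠ r) (h2 : t ≠ s) (h3 : r ≠ s) (σ : St)
    (h : (σ.reg r).length ≤ S) :
    Exec x S (copy r s t) σ ((σ.set t []).set s (σ.reg r)) := by
  refine ((ex_clear s σ).seq ((ex_clear t _).seq ((ex_mvAll h1.symm _ (by simp [h1.symm, h3, h])).seq
    (ex_dupAll h1 h2 h3 _ (by simp [h1.symm, h3, h]) (by simp [h1.symm, h2.symm, h3, h3.symm, h]))))).of_eq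
    (St.ext' (fun i => ?_) rfl)
  by_cases h : i = r <;> by_cases h' : i = s <;> by_cases h'' : i = t <;>
      simp_all [h1.symm, h2.symm, h3.symm]

/-- move the maximal run of bits `b` from the top of `r`, pushing `!b` on `t` -/
def strip (r t : ℕ) (b : Bool) : Prog A := .loop (cIs r b) (.seq (pop r) (push t (!b)))

theorem ex_strip {r t : ℕ} (hrt : r ≠ t) (b : Bool) (j : ℕ) (l : List Bool) (hb : l.head? ≠ some b)
    (σ : St) (hl : σ.reg r = List.replicate j b ++ l) (h : j + (σ.reg t).length ≤ S) :
    Exec x S (strip r t b) σ ((σ.set r l).set t (List.replicate j (!b) ++ σ.reg t)) := by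
  induction j generalizing σ with
  | zero =>
    refine (Exec.loopF (by simpa [hl] using hb)).of_eq (St.ext' (fun i => ?_) rfl)
    by_cases h : i = r <;> by_cases h' : i = t <;> simp_all
  | succ j ih =>
    refine (Exec.loopT (by simp [hl, List.replicate_succ])
      ((ex_pop r σ).seq (ex_push t _ _ (by simp [hrt.symm]; omega)))
      (ih _ (by simp [hl, hrt, List.replicate_succ]) (by simp [hrt.symm]; omega))).of_eq
      (St.ext' (fun i => ?_) rfl)
    by_cases h : i = r <;> by_cases h' : i = t <;> simp_all [hrt.symm]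
    rw [List.replicate_succ']; simp

theorem split_run (b : Bool) (l : List Bool) :
    ∃ j l', l = List.replicate j b ++ l' ∧ l'.head? ≠ some b := by
  induction l with
  | nil => exact ⟨0, [], rfl, by simp⟩
  | cons c l ih =>
    by_cases h : c = b
    · obtain ⟨j, l', h1, h2⟩ := ih
      exact ⟨j + 1, l', by simp [List.replicate_succ, h, h1], h2⟩
    · exact ⟨0, c :: l, rfl, by simpa using h⟩

theorem val_rep (j : ℕ) (b : Bool) (l : List Bool) :
    val (List.replicate j b ++ l) + (1 + b.toNat) = 2 ^ j * (val l + (1 + b.toNat)) := by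
  induction j with
  | zero => simp
  | succ j ih =>
    simp only [List.replicate_succ, List.cons_append, val, pow_succ]
    linarith

def succP (r t : ℕ) : Prog A :=
  .seq (clear t) (.seq (strip r t true)
    (.seq (.ite (cNe r) (.seq (pop r) (push r true)) (push r false)) (mvAll t r)))

theorem ex_succ {r t : ℕ} (hrt : r ≠ t) (σ : St) (h : val (σ.reg r) + 1 < 2 ^ S) :
    ∃ l, val l = val (σ.reg r) + 1 ∧ Exec x S (succP r t) σ ((σ.set t []).set r l) := by
  obtain ⟨j, l, h1, h2⟩ := split_run true (σ.reg r)
  have e1 := val_rep j true l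
  rw [← h1] at e1
  cases l with
  | nil =>
    have e2 := val_rep j false [false]
    have hv : val (List.replicate j false ++ [false]) = val (σ.reg r) + 1 := by
      simp [val] at e1 e2; omega
    have hl := len_le (l := List.replicate j false ++ [false]) (S := S) (by omega)
    simp at hl
    refine ⟨_, hv, ((ex_clear t σ).seq ((ex_strip hrt true j [] h2 _ (by simp [hrt, h1])
      (by simp; omega)).seq ((Exec.iteF (by simp [hrt]) (ex_push r false _ (by simp [hrt]; omega))).seq
      (ex_mvAll hrt.symm _ (by simp [hrt, hrt.symm]; omega))))).of_eq (St.ext' (fun i => ?_) rfl)⟩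
    by_cases h : i = r <;> by_cases h' : i = t <;> simp_all [hrt.symm]
  | cons c l =>
    have hc : c = false := by simpa using h2
    subst hc
    have e2 := val_rep j false (true :: l)
    have hv : val (List.replicate j false ++ true :: l) = val (σ.reg r) + 1 := by
      simp only [val, Bool.toNat_true, Bool.toNat_false] at e1 e2
      have : 2 * val l + 1 + 0 + (1 + 1) = 2 * val l + 1 + 1 + (1 + 0) := by ring
      rw [this] at e1; omega
    have hl := len_le (l := List.replicate j false ++ true :: l) (S := S) (by omega)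
    simp at hl
    refine ⟨_, hv, ((ex_clear t σ).seq ((ex_strip hrt true j (false :: l) h2 _ (by simp [hrt, h1])
      (by simp; omega)).seq ((Exec.iteT (by simp [hrt]) ((ex_pop r _).seq
        (ex_push r true _ (by simp [hrt]; omega)))).seq
      (ex_mvAll hrt.symm _ (by simp [hrt, hrt.symm]; omega))))).of_eq (St.ext' (fun i => ?_) rfl)⟩
    by_cases h : i = r <;> by_cases h' : i = t <;> simp_all [hrt.symm]

def predP (r t : ℕ) : Prog A :=
  .seq (clear t) (.seq (strip r t false)
    (.seq (.ite (cNe r) (.seq (pop r) (push r false)) (pop t)) (mvAll t r)))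

theorem ex_pred {r t : ℕ} (hrt : r ≠ t) (σ : St) (h : val (σ.reg r) < 2 ^ S) :
    ∃ l, val l = val (σ.reg r) - 1 ∧ Exec x S (predP r t) σ ((σ.set t []).set r l) := by
  obtain ⟨j, l, h1, h2⟩ := split_run false (σ.reg r)
  have e1 := val_rep j false l
  have hl := len_le h
  rw [← h1] at e1
  rw [h1] at hl
  simp at hl
  cases l with
  | nil =>
    have hv : val (List.replicate (j - 1) true ++ []) = val (σ.reg r) - 1 := by
      have e2 := val_rep (j - 1) true []
      cases j with
      | zero => simp [h1, val]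
      | succ j =>
        simp only [val, Bool.toNat_true, Bool.toNat_false, pow_succ, Nat.add_sub_cancel] at e1 e2 ⊢
        omega
    refine ⟨_, hv, ((ex_clear t σ).seq ((ex_strip hrt false j [] h2 _ (by simp [hrt, h1])
      (by simp; omega)).seq ((Exec.iteF (by simp [hrt]) (ex_pop t _)).seq
      (ex_mvAll hrt.symm _ (by simp [hrt]; omega))))).of_eq (St.ext' (fun i => ?_) rfl)⟩
    by_cases h : i = r <;> by_cases h' : i = t <;> simp_all [hrt.symm]
  | cons c l =>
    have hc : c = true := by simpa using h2
    subst hc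
    have e2 := val_rep j true (false :: l)
    have hv : val (List.replicate j true ++ false :: l) = val (σ.reg r) - 1 := by
      simp only [val, Bool.toNat_true, Bool.toNat_false] at e1 e2
      have : 2 * val l + 1 + 0 + (1 + 1) = 2 * val l + 1 + 1 + (1 + 0) := by ring
      rw [this] at e2; omega
    simp at hl
    refine ⟨_, hv, ((ex_clear t σ).seq ((ex_strip hrt false j (true :: l) h2 _ (by simp [hrt, h1])
      (by simp; omega)).seq ((Exec.iteT (by simp [hrt]) ((ex_pop r _).seq
        (ex_push r false _ (by simp [hrt]; omega)))).seq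
      (ex_mvAll hrt.symm _ (by simp [hrt, hrt.symm]; omega))))).of_eq (St.ext' (fun i => ?_) rfl)⟩
    by_cases h : i = r <;> by_cases h' : i = t <;> simp_all [hrt.symm]

/-- counted loop: run `p` as many times as the value of `c`, destroying `c` and `t`. -/
def rep (c t : ℕ) (p : Prog A) : Prog A := .loop (cNe c) (.seq (predP c t) p)

theorem ex_rep {c t : ℕ} (hct : c ≠ t) (p : Prog A) (n : ℕ) (hn : n < 2 ^ S) (I : ℕ → St → Prop)
    (hI : ∀ i σ l, I i σ → I i ((σ.set t []).set c l))
    (hp : ∀ i < n, ∀ σ, I i σ → ∃ σ', Exec x S p σ σ' ∧ I (i + 1) σ' ∧ σ'.reg c = σ.reg c) :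
    ∀ m ≤ n, ∀ σ, val (σ.reg c) = m → I (n - m) σ → ∃ σ', Exec x S (rep c t p) σ σ' ∧ I n σ' := by
  intro m
  induction m with
  | zero =>
    intro _ σ h1 h2
    exact ⟨σ, Exec.loopF (by simp [val_eq_zero.1 h1]), h2⟩
  | succ m ih =>
    intro hm σ h1 h2
    obtain ⟨l, hl, e1⟩ := ex_pred (x := x) (S := S) hct σ (by omega)
    obtain ⟨σ', e2, h3, h4⟩ := hp (n - (m + 1)) (by omega) _ (hI _ _ l h2)
    obtain ⟨σ'', e3, h5⟩ := ih (by omega) σ' (by rw [h4]; simp; omega)
      (by rwa [show n - m = n - (m + 1) + 1 by omega])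
    refine ⟨σ'', Exec.loopT ?_ (e1.seq e2) e3, h5⟩
    have : σ.reg c ≠ [] := fun h => by rw [h] at h1; simp [val] at h1
    cases h : σ.reg c with
    | nil => exact absurd h this
    | cons b l => simp [h]

/-- rewind the input head -/
def rewind : Prog A :=
  .loop (.inp fun s => match s with | .lend => false | _ => true) (.act (.mv .left))

theorem ex_rewind (σ : St) : Exec x S rewind σ ⟨σ.reg, 0⟩ := by
  obtain ⟨g, p⟩ := σ
  induction p with
  | zero => exact Exec.loopF rfl
  | succ p ih =>
    refine Exec.loopT ?_ (Exec.act (.mv .left) _ trivial) ih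
    simp only [Cond.on, Cond.ev, inSym]
    cases x[p]? <;> rfl

end Vale.Agent.P312
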