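import Vale.Agent.P312.Num

/-! Block visits of a one-tape machine, on numbers. -/

namespace Vale.Agent.P312

open scoped Classical

variable {A : Type} (M : OneTape A)

noncomputable def nq : ℕ := Nat.card M.Q
noncomputable def ng : ℕ := Nat.card M.Γ
noncomputable def eQ : M.Q ≃ Fin (nq M) := @Finite.equivFin _ M.finQ
noncomputable def eG : M.Γ ≃ Fin (ng M) := @Finite.equivFin _ M.finΓ
noncomputable def cQ (s : M.Q) : ℕ := (eQ M s).val
noncomputable def cG (s : M.Γ) : ℕ := (eG M s).val

theorem cQ_lt (s : M.Q) : cQ M s < nq M := (eQ M s).isLt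
theorem cG_lt (s : M.Γ) : cG M s < ng M := (eG M s).isLt
theorem nq_pos : 0 < nq M := lt_of_le_of_lt (Nat.zero_le _) (cQ_lt M M.start)
theorem ng_pos : 0 < ng M := lt_of_le_of_lt (Nat.zero_le _) (cG_lt M M.blank)

noncomputable def tab (f : M.Q → M.Γ → ℕ) (i j : ℕ) : ℕ :=
  if h : i < nq M ∧ j < ng M then f ((eQ M).symm ⟨i, h.1⟩) ((eG M).symm ⟨j, h.2⟩) else 0

theorem tab_code (f : M.Q → M.Γ → ℕ) (s : M.Q) (g : M.Γ) : tab M f (cQ M s) (cG M g) = f s g := by
  rw [tab, dif_pos ⟨cQ_lt M s, cG_lt M g⟩]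
  simp [cQ, cG]

theorem tab_le {f : M.Q → M.Γ → ℕ} {B : ℕ} (h : ∀ s g, f s g ≤ B) (i j : ℕ) : tab M f i j ≤ B := by
  unfold tab; split_ifs
  · exact h _ _
  · omega

def ocode : Option Bool → ℕ
  | none => 0
  | some false => 1
  | some true => 2

def mcode : Move → ℕ
  | .left => 0
  | .stay => 1
  | .right => 2

noncomputable def hlt (i : ℕ) : ℕ := tab M (fun s _ => ocode (M.out s)) i (cG M M.blank)
noncomputable def tq : ℕ → ℕ → ℕ := tab M (fun s g => cQ M (M.δ s g).1)
noncomputable def ts : ℕ → ℕ → ℕ := tab M (fun s g => cG M (M.δ s g).2.1)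
noncomputable def tm : ℕ → ℕ → ℕ := tab M (fun s g => mcode (M.δ s g).2.2)

noncomputable def mstep (Z w b : ℕ) (p : ℕ × ℕ) : ℕ × ℕ :=
  if hlt M (p.1 % nq M) ≠ 0 ∨ p.1 / nq M / w ≠ b then p
  else (tq M (p.1 % nq M) (dig (ng M) p.2 (p.1 / nq M % w)) + nq M * (p.1 / nq M +
      tm M (p.1 % nq M) (dig (ng M) p.2 (p.1 / nq M % w)) - 1),
    md Z (ofd (ng M) (fun i => if i = p.1 / nq M % w then
      ts M (p.1 % nq M) (dig (ng M) p.2 (p.1 / nq M % w)) else dig (ng M) p.2 i) w))

noncomputable def rnd (Z w T c y : ℕ) : ℕ × ℕ :=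
  itr T (c, y) (fun _ => mstep M Z w (c / nq M / w))

noncomputable def sim (Z w T j : ℕ) (f : ℕ → ℕ) (R y : ℕ) : ℕ × ℕ :=
  itr R (y, 0) (fun r p => if f r / nq M / w = j then ((rnd M Z w T (f r) p.1).2,
    if (rnd M Z w T (f r) p.1).1 = f (r + 1) then p.2 else 1) else p)

def ctlF (K a u P g r : ℕ) : ℕ := if r ≤ u * a then dig K P r else dig K g (r - u * a - 1)

noncomputable def errF (Z w T K Y a v j g x x' : ℕ) : ℕ :=
  (sim M Z w T j (ctlF K a (v % a) (x / Y) g) ((v % a + 1) * a) (x' % Y)).2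

noncomputable def HF (Z w T K Y a v j g x : ℕ) : ℕ :=
  if v % a + 1 < a then
    md Z (ofd K (ctlF K a (v % a) (x / Y) g) ((v % a + 1) * a + 1)) * Y + x % Y
  else ctlF K a (v % a) (x / Y) g (a * a) * Y +
    (sim M Z w T j (ctlF K a (v % a) (x / Y) g) (a * a) (x % Y)).1

noncomputable def icode : InSym A → ℕ
  | .ch a => cG M (M.inp a)
  | _ => cG M M.blank

noncomputable def isym (x : List A) (off p : ℕ) : ℕ :=
  if p < off then cG M M.blank else icode M (inSym x (p - off + 1))

noncomputable def N0F (x : List A) (Z w off Y j : ℕ) : ℕ :=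
  (cQ M M.start + nq M * off) * Y + md Z (ofd (ng M) (fun i => isym M x off (j * w + i)) w)

section ls
variable {α : Type} [Enc A α]

@[fun_prop] theorem LS.tab (f : M.Q → M.Γ → ℕ) {i j : α → ℕ} (hi : LS A i) (hj : LS A j) :
    LS A (fun a => tab M f (i a) (j a)) := by
  have := ls_table (A := A) (Finset.range (nq M) ×ˢ Finset.range (ng M))
    (fun p => P312.tab M f p.1 p.2)
  refine (this.comp (hi.pair hj)).of_eq fun a => ?_
  simp only [Finset.mem_product, Finset.mem_range]
  split_ifs with h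
  · rfl
  · rw [P312.tab, dif_neg h]

@[fun_prop] theorem LS.hlt {i : α → ℕ} (hi : LS A i) : LS A (fun a => hlt M (i a)) := by
  unfold P312.hlt; fun_prop

@[fun_prop] theorem LS.mstep {Z w b : α → ℕ} {p : α → ℕ × ℕ} (hZ : LS A Z) (hw : LS A w)
    (hb : LS A b) (hp : LS A p) : LS A (fun a => mstep M (Z a) (w a) (b a) (p a)) := by
  unfold P312.mstep tq ts tm
  exact LS.ite (by fun_prop) hp (LS.pair (by fun_prop) (LS.ofd hZ (by fun_prop) hw (by fun_prop)))

theorem mstep_snd (Z w b : ℕ) (p : ℕ × ℕ) : (mstep M Z w b p).2 ≤ max p.2 Z := by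
  unfold mstep; split_ifs
  · exact le_max_left _ _
  · exact (md_le _ _).trans (le_max_right _ _)

theorem mstep_fst (Z w b : ℕ) (p : ℕ × ℕ) : (mstep M Z w b p).1 ≤ p.1 + 2 * nq M := by
  unfold mstep; split_ifs
  · omega
  · have h1 : ∀ i j, tq M i j ≤ nq M := tab_le M fun s g => (cQ_lt M _).le
    have h2 : ∀ i j, tm M i j ≤ 2 := tab_le M fun s g => by cases (M.δ s g).2.2 <;> simp [mcode]
    have h3 := h1 (p.1 % nq M) (dig (ng M) p.2 (p.1 / nq M % w))
    have h4 := h2 (p.1 % nq M) (dig (ng M) p.2 (p.1 / nq M % w))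
    have h5 := Nat.mul_div_le p.1 (nq M)
    have h6 : nq M * (p.1 / nq M + tm M (p.1 % nq M) (dig (ng M) p.2 (p.1 / nq M % w)) - 1) ≤
        nq M * (p.1 / nq M + 1) := Nat.mul_le_mul_left _ (by generalize p.1 / nq M = z at *; omega)
    dsimp only
    nlinarith

@[fun_prop] theorem LS.rnd {Z w T c y : α → ℕ} (hZ : LS A Z) (hw : LS A w) (hT : LS A T)
    (hc : LS A c) (hy : LS A y) : LS A (fun a => rnd M (Z a) (w a) (T a) (c a) (y a)) := by
  refine LS.itr (b := fun a => 2 * nq M + Z a) hT (by fun_prop) (by fun_prop) (by fun_prop)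
    fun a i p _ => ?_
  have h1 := mstep_snd M (Z a) (w a) (c a / nq M / w a) p
  have h2 := mstep_fst M (Z a) (w a) (c a / nq M / w a) p
  obtain ⟨x, y⟩ := p
  rw [← Prod.mk.eta (p := P312.mstep M _ _ _ _)]
  simp only [nrm_prod, nrm_nat] at *
  omega

theorem rnd_snd (Z w T c y : ℕ) : (rnd M Z w T c y).2 ≤ max y Z := by
  unfold rnd
  induction T with
  | zero => exact le_max_left _ _
  | succ T ih => rw [itr_succ]; exact (mstep_snd M _ _ _ _).trans (by omega)

theorem LS.sim {Z w T j R y : α → ℕ} {f : α → ℕ → ℕ} (hZ : LS A Z) (hw : LS A w) (hT : LS A T)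
    (hj : LS A j) (hf : LS A (fun p : α × ℕ => f p.1 p.2)) (hR : LS A R) (hy : LS A y) :
    LS A (fun a => sim M (Z a) (w a) (T a) (j a) (f a) (R a) (y a)) := by
  refine LS.itr (b := fun a => Z a + 1) hR (by fun_prop) (by fun_prop) (by fun_prop)
    fun a i p _ => ?_
  obtain ⟨x, y⟩ := p
  have := rnd_snd M (Z a) (w a) (T a) (f a i) x
  split_ifs <;> simp only [nrm_prod, nrm_nat] <;> omega

@[fun_prop] theorem LS.ctlF {K b u P g r : α → ℕ} (hK : LS A K) (hb : LS A b) (hu : LS A u)
    (hP : LS A P) (hg : LS A g) (hr : LS A r) :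
    LS A (fun a => ctlF (K a) (b a) (u a) (P a) (g a) (r a)) := by
  unfold P312.ctlF; fun_prop

@[fun_prop] theorem LS.errF {Z w T K Y b v j g x x' : α → ℕ} (hZ : LS A Z) (hw : LS A w)
    (hT : LS A T) (hK : LS A K) (hY : LS A Y) (hb : LS A b) (hv : LS A v) (hj : LS A j)
    (hg : LS A g) (hx : LS A x) (hx' : LS A x') :
    LS A (fun a => errF M (Z a) (w a) (T a) (K a) (Y a) (b a) (v a) (j a) (g a) (x a) (x' a)) :=
  (LS.sim M hZ hw hT hj (by fun_prop) (by fun_prop) (by fun_prop)).snd

@[fun_prop] theorem LS.HF {Z w T K Y b v j g x : α → ℕ} (hZ : LS A Z) (hw : LS A w)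
    (hT : LS A T) (hK : LS A K) (hY : LS A Y) (hb : LS A b) (hv : LS A v) (hj : LS A j)
    (hg : LS A g) (hx : LS A x) :
    LS A (fun a => HF M (Z a) (w a) (T a) (K a) (Y a) (b a) (v a) (j a) (g a) (x a)) :=
  LS.ite (by fun_prop) (LS.add (LS.mul (LS.ofd hZ hK (by fun_prop) (by fun_prop)) hY) (by fun_prop))
    (LS.add (by fun_prop) (LS.sim M hZ hw hT hj (by fun_prop) (by fun_prop) (by fun_prop)).fst)

@[fun_prop] theorem LS.isym {x : α → Wd A} {off p : α → ℕ} (hx : LS A x) (ho : LS A off)
    (hp : LS A p) : LS A (fun a => isym M (x a).x (off a) (p a)) := by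
  have := ls_inp (icode M) (ng M) (fun s => by cases s <;> exact cG_lt M _)
  exact LS.ite (by fun_prop) (by fun_prop) (this.comp (hx.pair (hp.sub ho)))

theorem LS.N0F {x : α → Wd A} {Z w off Y j : α → ℕ} (hx : LS A x) (hZ : LS A Z) (hw : LS A w)
    (ho : LS A off) (hY : LS A Y) (hj : LS A j) :
    LS A (fun a => N0F M (x a).x (Z a) (w a) (off a) (Y a) (j a)) :=
  LS.add (by fun_prop) (LS.ofd hZ (by fun_prop) hw
    (LS.isym M (hx.comp ls_fst) (by fun_prop) (by fun_prop)))

end ls

/-! The true computation. -/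

def pos (off : ℕ) (c : M.Cfg) : ℕ := (c.head + off).toNat
noncomputable def ctl (off : ℕ) (c : M.Cfg) : ℕ := cQ M c.state + nq M * pos M off c
noncomputable def blk (off w : ℕ) (c : M.Cfg) (j : ℕ) : ℕ :=
  ofd (ng M) (fun i => cG M (c.tape ((j * w + i : ℕ) - off))) w
def stepIn (off w b : ℕ) (c : M.Cfg) : M.Cfg := if pos M off c / w = b then M.step c else c
def round (off w T : ℕ) (c : M.Cfg) : M.Cfg := (stepIn M off w (pos M off c / w))^[T] c

variable {M}

theorem ctl_mod (off : ℕ) (c : M.Cfg) : ctl M off c % nq M = cQ M c.state := by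
  rw [ctl, Nat.add_mul_mod_self_left, Nat.mod_eq_of_lt (cQ_lt M _)]
theorem ctl_div (off : ℕ) (c : M.Cfg) : ctl M off c / nq M = pos M off c := by
  rw [ctl, Nat.add_mul_div_left _ _ (nq_pos M), Nat.div_eq_of_lt (cQ_lt M _), zero_add]
theorem hlt_code (s : M.Q) : hlt M (cQ M s) = ocode (M.out s) := tab_code M _ _ _
theorem blk_lt (off w : ℕ) (c : M.Cfg) (j : ℕ) : blk M off w c j < ng M ^ w :=
  ofd_lt fun _ _ => cG_lt M _
theorem ocode_eq_zero {o : Option Bool} : ocode o = 0 ↔ ¬ o.isSome = true := by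
  rcases o with _ | _ | _ <;> simp [ocode]
theorem mcode_eq (m : Move) : m.toInt = (mcode m : ℤ) - 1 := by cases m <;> rfl
theorem mcode_le (m : Move) : mcode m ≤ 2 := by cases m <;> simp [mcode]

theorem step_halt {c : M.Cfg} (h : (M.out c.state).isSome = true) : M.step c = c := if_pos h

theorem step_head (c : M.Cfg) : c.head - 1 ≤ (M.step c).head ∧ (M.step c).head ≤ c.head + 1 := by
  unfold OneTape.step
  split_ifs
  · omega
  · have := mcode_le (M.δ c.state (c.tape c.head)).2.2
    simp only [mcode_eq]; omega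

theorem step_tape (c : M.Cfg) {z : ℤ} (h : z ≠ c.head) : (M.step c).tape z = c.tape z := by
  unfold OneTape.step
  split_ifs
  · rfl
  · exact Function.update_of_ne h _ _

theorem mstep_sim {off w b Z : ℕ} (hw : 0 < w) (hb : 1 ≤ b) (hZ : ng M ^ w ≤ Z) {c : M.Cfg}
    (hc : 0 ≤ c.head + off) :
    mstep M Z w b (ctl M off c, blk M off w c b) =
      (ctl M off (stepIn M off w b c), blk M off w (stepIn M off w b c) b) := by
  unfold mstep stepIn
  simp only [ctl_mod, ctl_div, hlt_code]
  by_cases h1 : pos M off c / w = b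
  · rw [if_pos h1]
    by_cases h2 : (M.out c.state).isSome = true
    · rw [step_halt h2, if_pos (Or.inl (fun h => ocode_eq_zero.1 h h2))]
    · rw [if_neg (by rw [ocode_eq_zero.2 h2]; simp [h1])]
      have hm := Nat.mod_lt (pos M off c) hw
      have hp : b * w + pos M off c % w = pos M off c := by rw [← h1]; exact Nat.div_add_mod' _ _
      have hp' : (pos M off c : ℤ) = c.head + off := Int.toNat_of_nonneg hc
      have hz : ((b * w + pos M off c % w : ℕ) : ℤ) - off = c.head := by rw [hp, hp']; ring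
      have hs : dig (ng M) (blk M off w c b) (pos M off c % w) = cG M (c.tape c.head) := by
        rw [blk, dig_ofd (fun _ _ => cG_lt M _) hm, hz]
      have hst : M.step c = ⟨(M.δ c.state (c.tape c.head)).1,
          Function.update c.tape c.head (M.δ c.state (c.tape c.head)).2.1,
          c.head + (M.δ c.state (c.tape c.head)).2.2.toInt⟩ := if_neg h2
      have h1w : 1 ≤ pos M off c := by
        have : 0 < b * w := Nat.mul_pos hb hw
        omega
      rw [hs, hst, tq, ts, tm, tab_code, tab_code, tab_code]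
      refine Prod.ext ?_ ?_
      · simp only [ctl, pos, mcode_eq] at hp' h1w ⊢
        congr 2; omega
      · have e : ofd (ng M) (fun i => if i = pos M off c % w then
            cG M (M.δ c.state (c.tape c.head)).2.1 else dig (ng M) (blk M off w c b) i) w =
            blk M off w ⟨(M.δ c.state (c.tape c.head)).1,
              Function.update c.tape c.head (M.δ c.state (c.tape c.head)).2.1,
              c.head + (M.δ c.state (c.tape c.head)).2.2.toInt⟩ b := by
          refine ofd_congr fun i hi => ?_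
          split_ifs with h3
          · rw [h3, hz]; simp
          · rw [blk, dig_ofd (fun _ _ => cG_lt M _) hi]
            dsimp only
            rw [Function.update_of_ne]
            rw [← hz]; push_cast; omega
        dsimp only
        rw [e, md_of_lt ((blk_lt _ _ _ _).trans_le hZ)]
  · rw [if_neg h1, if_pos (Or.inr h1)]

theorem blk_stepIn {off w b j : ℕ} (hj : j ≠ b) {c : M.Cfg} (hc : 0 ≤ c.head + off) :
    blk M off w (stepIn M off w b c) j = blk M off w c j := by
  unfold stepIn
  split_ifs with h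
  · refine ofd_congr fun i hi => ?_
    rw [step_tape]
    intro h1
    have : pos M off c = j * w + i := by unfold pos; omega
    rw [this, idx_div _ hi] at h
    exact hj h
  · rfl

def Inv (off w b : ℕ) (c : M.Cfg) : Prop :=
  0 ≤ c.head + off ∧ b * w ≤ pos M off c + 1 ∧ pos M off c ≤ b * w + w

theorem Inv.step {off w b : ℕ} (hw : 0 < w) (hb : 1 ≤ b) {c : M.Cfg} (h : Inv off w b c) :
    Inv off w b (stepIn M off w b c) := by
  unfold stepIn
  split_ifs with h1
  · have hm := Nat.mod_lt (pos M off c) hw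
    have hp : b * w + pos M off c % w = pos M off c := by rw [← h1]; exact Nat.div_add_mod' _ _
    have h2 := step_head c
    have h3 : w ≤ b * w := by nlinarith
    have h4 := h.1
    unfold Inv pos at *
    omega
  · exact h

theorem round_spec {off w T Z : ℕ} (hw : 0 < w) (hZ : ng M ^ w ≤ Z) {c : M.Cfg}
    (hc : 0 ≤ c.head + off) (hb : 1 ≤ pos M off c / w) :
    rnd M Z w T (ctl M off c) (blk M off w c (pos M off c / w)) =
      (ctl M off (round M off w T c), blk M off w (round M off w T c) (pos M off c / w)) ∧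
    (∀ j ≠ pos M off c / w, blk M off w (round M off w T c) j = blk M off w c j) ∧
    Inv off w (pos M off c / w) (round M off w T c) := by
  unfold rnd round
  rw [ctl_div]
  induction T with
  | zero =>
    refine ⟨rfl, fun _ _ => rfl, hc, ?_, ?_⟩
    · have := Nat.div_mul_le_self (pos M off c) w
      simp only [Function.iterate_zero, id]; omega
    · have := Nat.div_add_mod' (pos M off c) w
      have := Nat.mod_lt (pos M off c) hw
      simp only [Function.iterate_zero, id]; omega
  | succ T ih =>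
    rw [itr_succ, ih.1, Function.iterate_succ_apply']
    exact ⟨mstep_sim hw hb hZ ih.2.2.1, fun j hj => by rw [blk_stepIn hj ih.2.2.1, ih.2.1 j hj],
      ih.2.2.step hw hb⟩

theorem Inv.div {off w b : ℕ} (hw : 0 < w) {c : M.Cfg} (h : Inv off w b c) :
    b ≤ pos M off c / w + 1 ∧ pos M off c / w ≤ b + 1 := by
  obtain ⟨_, h1, h2⟩ := h
  constructor
  · rw [← Nat.add_div_right _ hw, Nat.le_div_iff_mul_le hw]; omega
  · refine (Nat.div_le_div_right h2).trans (le_of_eq ?_)
    rw [Nat.add_div_right _ hw, Nat.mul_div_cancel _ hw]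

/-- configuration after `m` block visits -/
def cfg (M : OneTape A) (x : List A) (off w T m : ℕ) : M.Cfg := (round M off w T)^[m] (M.init x)

section
variable {x : List A} {n w r T Z : ℕ} (hr : r < w) (hZ : ng M ^ w ≤ Z)
include hr hZ

theorem cfg_inv {m : ℕ} (hm : m ≤ n) : 0 ≤ (cfg M x (n * w + r) w T m).head + (n * w + r : ℕ) ∧
    n ≤ pos M (n * w + r) (cfg M x (n * w + r) w T m) / w + m ∧
    pos M (n * w + r) (cfg M x (n * w + r) w T m) / w ≤ n + m := by
  induction m with
  | zero =>
    have : pos M (n * w + r) (cfg M x (n * w + r) w T 0) = n * w + r := by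
      simp only [pos, cfg, Function.iterate_zero, id, OneTape.init]; omega
    rw [this, idx_div _ hr]
    refine ⟨?_, by omega, by omega⟩
    simp only [cfg, Function.iterate_zero, id, OneTape.init]; omega
  | succ m ih =>
    obtain ⟨h1, h2, h3⟩ := ih (by omega)
    have h4 := (round_spec (T := T) (by omega) hZ h1 (by omega)).2.2
    have h5 := h4.div (by omega)
    rw [cfg, Function.iterate_succ_apply']
    exact ⟨h4.1, by unfold cfg at *; omega, by unfold cfg at *; omega⟩

theorem ctl_lt {m : ℕ} (hm : m ≤ n) :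
    ctl M (n * w + r) (cfg M x (n * w + r) w T m) < nq M * (2 * n + 1) * w := by
  have h1 := (cfg_inv (x := x) (T := T) hr hZ hm).2.2
  have h2 : pos M (n * w + r) (cfg M x (n * w + r) w T m) < (2 * n + 1) * w := by
    rw [← Nat.div_lt_iff_lt_mul (by omega)]; omega
  have h3 := cQ_lt M (cfg M x (n * w + r) w T m).state
  unfold ctl; nlinarith

theorem sim_step {m j : ℕ} (hm : m < n) :
    (if ctl M (n * w + r) (cfg M x (n * w + r) w T m) / nq M / w = j then
      (rnd M Z w T (ctl M (n * w + r) (cfg M x (n * w + r) w T m))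
        (blk M (n * w + r) w (cfg M x (n * w + r) w T m) j)) =
      (ctl M (n * w + r) (cfg M x (n * w + r) w T (m + 1)),
        blk M (n * w + r) w (cfg M x (n * w + r) w T (m + 1)) j)
    else blk M (n * w + r) w (cfg M x (n * w + r) w T (m + 1)) j =
      blk M (n * w + r) w (cfg M x (n * w + r) w T m) j) := by
  obtain ⟨h1, h2, h3⟩ := cfg_inv (x := x) (T := T) hr hZ hm.le
  have h4 := round_spec (T := T) (by omega) hZ h1 (by omega)
  have e : cfg M x (n * w + r) w T (m + 1) = round M (n * w + r) w T (cfg M x (n * w + r) w T m) :=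
    Function.iterate_succ_apply' _ _ _
  rw [ctl_div, e]
  split_ifs with h
  · rw [← h]; exact h4.1
  · exact h4.2.1 j (Ne.symm h)

theorem sim_true {m R j : ℕ} (hm : m + R ≤ n) {f : ℕ → ℕ}
    (hf : ∀ i ≤ R, f i = ctl M (n * w + r) (cfg M x (n * w + r) w T (m + i))) :
    sim M Z w T j f R (blk M (n * w + r) w (cfg M x (n * w + r) w T m) j) =
      (blk M (n * w + r) w (cfg M x (n * w + r) w T (m + R)) j, 0) := by
  unfold sim
  induction R with
  | zero => rfl
  | succ R ih =>
    have h1 := sim_step (x := x) (T := T) (j := j) hr hZ (show m + R < n by omega)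
    rw [itr_succ, ih (by omega) fun i hi => hf i (by omega), hf R (by omega), hf (R + 1) le_rfl]
    split_ifs at h1 ⊢ with h2 h3
    · rw [h1]; rfl
    · rw [h1] at h3; exact absurd rfl h3
    · rw [← h1]; rfl

theorem sim_unique {m R : ℕ} (hm : m + R ≤ n) {f : ℕ → ℕ}
    (h0 : f 0 = ctl M (n * w + r) (cfg M x (n * w + r) w T m))
    (hf : ∀ j < 2 * n + 1,
      (sim M Z w T j f R (blk M (n * w + r) w (cfg M x (n * w + r) w T m) j)).2 = 0) :
    ∀ i ≤ R, f i = ctl M (n * w + r) (cfg M x (n * w + r) w T (m + i)) := by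
  induction R with
  | zero => intro i hi; rw [Nat.le_zero.1 hi]; exact h0
  | succ R ih =>
    have h1 := ih (by omega) fun j hj => by
      have := hf j hj
      unfold sim at this ⊢
      rw [itr_succ] at this
      split_ifs at this
      · exact this
      · exact this
    intro i hi
    rcases Nat.lt_succ_iff_lt_or_eq.1 (Nat.lt_succ_of_le hi) with hi | rfl
    · exact h1 i (by omega)
    · have h2 := (cfg_inv (x := x) (T := T) hr hZ (show m + R ≤ n by omega)).2.2
      have h3 := hf (pos M (n * w + r) (cfg M x (n * w + r) w T (m + R)) / w) (by omega)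
      have h4 := sim_step (x := x) (T := T)
        (j := pos M (n * w + r) (cfg M x (n * w + r) w T (m + R)) / w) hr hZ
        (show m + R < n by omega)
      have h5 := sim_true (j := pos M (n * w + r) (cfg M x (n * w + r) w T (m + R)) / w) hr hZ
        (show m + R ≤ n by omega) h1
      unfold sim at h3 h5
      rw [itr_succ, h5, h1 R le_rfl] at h3
      rw [ctl_div, if_pos rfl] at h3 h4
      rw [h4] at h3
      dsimp only at h3
      split_ifs at h3 with h6
      exact h6.symm

end

end Vale.Agent.P312
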